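import Crest.Agent.N250.Master
import Crest.Agent.N250.T.Stm
import Crest.Agent.N250.Tr.Base

/-! Row 250, block E (helper28): elementary laws for the flow `√(-t) S` and its blow-ups. -/

set_option autoImplicit false
open MeasureTheory Set Filter Topology
open scoped ContDiff RealInnerProductSpace Pointwise
open Crest.GeometryTopology.MCF

noncomputable section

namespace Crest.Agent.N250.E

/-- Gaussian area of a set -/
def gA (A : Set E) (y : E) (s : ℝ) : ℝ := ∫ x in A, gau y s x ∂(μHE[2] : Measure E)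

theorem Fs_eq (F : Mv) (t : ℝ) (y : E) (s : ℝ) : F.Fs t y s = gA (F.sl t) y s := rfl

theorem gau_nonneg (y : E) {s : ℝ} (hs : 0 < s) (x : E) : 0 ≤ gau y s x := by
  unfold gau; positivity

theorem gA_nonneg (A : Set E) (y : E) {s : ℝ} (hs : 0 < s) : 0 ≤ gA A y s :=
  integral_nonneg fun x => gau_nonneg y hs x

theorem gA_aff (A : Set E) {m : ℝ} (hm : 0 < m) (v y : E) (s : ℝ) :
    gA {x | m⁻¹ • (x + v) ∈ A} y s = gA A (m⁻¹ • (y + v)) (s / m ^ 2) := by
  let T : E ≃ₜ E := (Homeomorph.addRight v).trans (Homeomorph.smulOfNeZero m⁻¹ (inv_ne_zero hm.ne'))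
  have hT : ∀ x, T x = m⁻¹ • (x + v) := fun x => rfl
  have hmap : Measure.map T.toMeasurableEquiv (μHE[2] : Measure E) =
      ENNReal.ofReal (m ^ 2) • (μHE[2] : Measure E) := by
    ext B hB
    rw [MeasurableEquiv.map_apply, Measure.smul_apply]
    have : T.toMeasurableEquiv ⁻¹' B = (fun x => x + v) ⁻¹' (m • B) := by
      ext x
      simp only [mem_preimage, mem_smul_set_iff_inv_smul_mem₀ hm.ne']
      rfl
    rw [this, measure_preimage_add_right, Measure.euclideanHausdorffMeasure_smul₀ 2 hm.ne',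
      ENNReal.smul_def, smul_eq_mul, smul_eq_mul]
    congr 1
    rw [ENNReal.ofReal_pow hm.le, ENNReal.coe_pow, ← Real.enorm_eq_ofReal hm.le]
    rfl
  have h1 := setIntegral_map_equiv (μ := (μHE[2] : Measure E)) T.toMeasurableEquiv
    (fun z => (m ^ 2)⁻¹ * gau (m⁻¹ • (y + v)) (s / m ^ 2) z) A
  rw [hmap, Measure.restrict_smul, integral_smul_measure, integral_const_mul,
    ENNReal.toReal_ofReal (sq_nonneg m), smul_eq_mul, ← mul_assoc,
    mul_inv_cancel₀ (pow_ne_zero 2 hm.ne'), one_mul] at h1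
  unfold gA
  rw [h1]
  refine integral_congr_ae (Eventually.of_forall fun x => ?_)
  change gau y s x = (m ^ 2)⁻¹ * gau (m⁻¹ • (y + v)) (s / m ^ 2) (m⁻¹ • (x + v))
  unfold gau
  rw [← smul_sub, norm_smul, add_sub_add_right_eq_sub, norm_inv, Real.norm_eq_abs, abs_of_pos hm,
    ← mul_assoc]
  congr 1
  · rw [← mul_inv]; congr 1; field_simp
  · congr 1
    by_cases hs : s = 0
    · simp [hs]
    field_simp

theorem gA_plane {w : E} (hw : w ≠ 0) : gA {x | ⟪w, x⟫ = 0} 0 1 = 1 := by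
  let V := (ℝ ∙ w)ᗮ
  have hV : Module.finrank ℝ V = 2 := by
    have : Fact (Module.finrank ℝ E = 2 + 1) := ⟨by simp⟩
    exact Submodule.finrank_orthogonal_span_singleton hw
  have hr : {x : E | ⟪w, x⟫ = 0} = range (V.subtypeₗᵢ) := by
    ext x
    simp only [mem_ofPred_eq, mem_range, Submodule.coe_subtypeₗᵢ, Submodule.coe_subtype,
      Subtype.exists, exists_prop, exists_eq_right, V,
      Submodule.mem_orthogonal_singleton_iff_inner_right]
  unfold gA
  rw [hr, ← V.subtypeₗᵢ.isometry.map_euclideanHausdorffMeasure,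
    V.subtypeₗᵢ.isometry.isClosedEmbedding.integral_map, ← hV,
    InnerProductSpace.euclideanHausdorffMeasure_eq_volume]
  simp only [gau, sub_zero, LinearIsometry.norm_map, mul_one]
  rw [integral_const_mul]
  have := GaussianFourier.integral_rexp_neg_mul_sq_norm (V := V) (b := 1 / 4) (by norm_num)
  rw [hV] at this
  have e : (fun a : V => Real.exp (-‖a‖ ^ 2 / 4)) = fun a : V => Real.exp (-(1 / 4) * ‖a‖ ^ 2) := by
    ext a; congr 1; ring
  rw [e, this]
  have hp := Real.pi_pos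
  norm_num
  field_simp

variable {S : Mv}


theorem unr_mem (hS : S.Static) (x : E) (t : ℝ) :
    (x, t) ∈ S.unresc.M ↔ t < 0 ∧ (√(-t))⁻¹ • x ∈ S.sl 0 :=
  and_congr_right fun _ => hS.mem _ _

theorem unr_mem' (hS : S.Static) (x : E) {m : ℝ} (hm : 0 < m) :
    (x, -m ^ 2) ∈ S.unresc.M ↔ m⁻¹ • x ∈ S.sl 0 := by
  rw [unr_mem hS, neg_neg, Real.sqrt_sq hm.le]
  exact and_iff_right (by rw [neg_lt_zero]; positivity)

theorem unr_sl (hS : S.Static) {m : ℝ} (hm : 0 < m) :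
    S.unresc.sl (-m ^ 2) = {x | m⁻¹ • (x + 0) ∈ S.sl 0} := by
  ext x; simp only [add_zero]; exact unr_mem' hS x hm

theorem unr_sl_one (hS : S.Static) : S.unresc.sl (-1) = S.sl 0 := by
  have := unr_sl hS one_pos
  simpa using this

theorem unr_n (hS : S.Static) (x : E) {m : ℝ} (hm : 0 < m) :
    S.unresc.n (x, -m ^ 2) = S.n (m⁻¹ • x, 0) := by
  change S.n (umap _) = _
  unfold umap
  rw [hS.n_eq]
  simp only [neg_neg, Real.sqrt_sq hm.le]

/-- the blow-up of `√(-t) S` at `(y, 0)` -/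
def bl (S : Mv) (y : E) (lam : ℝ) : Mv := S.unresc.para (y, 0) lam

theorem bl_mem (hS : S.Static) (y x : E) {lam m : ℝ} (hl : 0 < lam) (hm : 0 < m) :
    (x, -m ^ 2) ∈ (bl S y lam).M ↔ m⁻¹ • (x + lam • y) ∈ S.sl 0 := by
  change (y + lam⁻¹ • x, 0 + -m ^ 2 / lam ^ 2) ∈ S.unresc.M ↔ _
  rw [show 0 + -m ^ 2 / lam ^ 2 = -(m / lam) ^ 2 by ring, unr_mem' hS _ (div_pos hm hl)]
  have : (m / lam)⁻¹ • (y + lam⁻¹ • x) = m⁻¹ • (x + lam • y) := by
    rw [smul_add, smul_add, smul_smul, smul_smul, add_comm]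
    congr 2 <;> field_simp
  rw [this]

theorem bl_sl (hS : S.Static) (y : E) {lam m : ℝ} (hl : 0 < lam) (hm : 0 < m) :
    (bl S y lam).sl (-m ^ 2) = {x | m⁻¹ • (x + lam • y) ∈ S.sl 0} := by
  ext x; exact bl_mem hS y x hl hm

theorem bl_Fg (hS : S.Static) (y : E) {lam K : ℝ} (hl : 0 < lam) (hK : 0 < K) :
    (bl S y lam).Fg 0 K = gA (S.sl 0) ((lam / K) • y) 1 := by
  unfold Mv.Fg
  rw [Fs_eq, Prod.snd_zero, zero_sub, bl_sl hS y hl hK, gA_aff _ hK, Prod.fst_zero, zero_add,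
    smul_smul, div_self (pow_ne_zero 2 hK.ne'), div_eq_inv_mul]

theorem unr_Fs (hS : S.Static) {m : ℝ} (hm : 0 < m) (y : E) (s : ℝ) :
    S.unresc.Fs (-m ^ 2) y s = gA (S.sl 0) (m⁻¹ • y) (s / m ^ 2) := by
  rw [Fs_eq, unr_sl hS hm, gA_aff _ hm, add_zero]

theorem unr_Fg (hS : S.Static) (y : E) {r : ℝ} (hr : 0 < r) :
    S.unresc.Fg (y, 0) r = gA (S.sl 0) (r⁻¹ • y) 1 := by
  unfold Mv.Fg
  rw [zero_sub, unr_Fs hS hr, div_self (pow_ne_zero 2 hr.ne')]

theorem unr_reach (hS : S.Static) (x : E) {m : ℝ} (hm : 0 < m) (ρ : ℝ) :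
    S.unresc.Reach (m • x, -m ^ 2) (m * ρ) ↔ S.Reach (x, 0) ρ := by
  unfold Mv.Reach
  have e : m⁻¹ • m • x = x := by rw [smul_smul, inv_mul_cancel₀ hm.ne', one_smul]
  simp only [unr_n hS _ hm, e, unr_sl hS hm, add_zero, mem_ofPred_eq]
  have d : ∀ a b : E, dist (m • a) (m • b) = m * dist a b := fun a b => by
    rw [dist_smul₀, Real.norm_eq_abs, abs_of_pos hm]
  constructor
  · intro h y hy
    have := h (m • y) (by rw [smul_smul, inv_mul_cancel₀ hm.ne', one_smul]; exact hy)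
    rw [mul_smul, ← smul_add, ← smul_sub, d, d, mul_le_mul_iff_right₀ hm,
      mul_le_mul_iff_right₀ hm] at this
    exact this
  · intro h y hy
    have := h _ hy
    have e2 : y = m • m⁻¹ • y := by rw [smul_smul, mul_inv_cancel₀ hm.ne', one_smul]
    rw [e2, mul_smul, ← smul_add, ← smul_sub, d, d, mul_le_mul_iff_right₀ hm,
      mul_le_mul_iff_right₀ hm]
    exact this

theorem reach_mono {F : Mv} {p : ST} (hn : ‖F.n p‖ = 1) {ρ σ : ℝ} (h : F.Reach p ρ)
    (hσ : σ ≤ ρ) : F.Reach p σ := by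
  intro y hy
  obtain ⟨h1, h2⟩ := h y hy
  have k : ‖(ρ - σ) • F.n p‖ = ρ - σ := by
    rw [norm_smul, hn, mul_one, Real.norm_eq_abs, abs_of_nonneg (sub_nonneg.2 hσ)]
  have t1 := dist_triangle y (p.1 + σ • F.n p) (p.1 + ρ • F.n p)
  have t2 := dist_triangle y (p.1 - σ • F.n p) (p.1 - ρ • F.n p)
  have e1 : dist (p.1 + σ • F.n p) (p.1 + ρ • F.n p) = ρ - σ := by
    rw [dist_comm, dist_eq_norm, add_sub_add_left_eq_sub, ← sub_smul, k]
  have e2 : dist (p.1 - σ • F.n p) (p.1 - ρ • F.n p) = ρ - σ := by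
    rw [dist_eq_norm, sub_sub_sub_cancel_left, ← sub_smul, k]
  constructor <;> linarith


/-- restriction in time -/
theorem fl_res {F : Mv} {I J : Set ℝ} {Λ : ℝ} (h : Fl F I Λ) (hJ : IsOpen J) (hJI : J ⊆ I)
    (hm : (F.res (univ ×ˢ J)).IsMCF) : Fl (F.res (univ ×ˢ J)) J Λ where
  mcf := hm
  time p hp := hp.2.2
  proper p hp hp' := ⟨h.proper p (closure_mono inter_subset_left hp) ⟨trivial, hJI hp'.2⟩, hp'⟩
  ar t y r hr := le_trans (Measure.restrict_mono (fun x hx => hx.1) le_rfl _) (h.ar t y r hr)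

end Crest.Agent.N250.E

end
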