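import Crest.Agent.N250.E.PJ
import Crest.Prelude.Def_MeanCurvatureFlow
import Crest.Agent.N250.Defs

-- ▼ part N250/E/PG
section

/-!
Row 250, block E (helper94): polar coordinates about an axis, and the two elementary consequences
of empty tangent balls near a round cylinder (the normal is almost radial; one point on a ray).
-/

set_option autoImplicit false

open Set Metric Filter
open scoped ContDiff Topology RealInnerProductSpace

noncomputable section

namespace Crest.Agent.N250.EP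

open Crest.GeometryTopology.MCF (E)

/-- distance of `x` to the axis `ℝ y` (`‖y‖ = 1`) -/
def dz (y x : E) : ℝ := ‖x - ⟪y, x⟫ • y‖

/-- the radial unit vector -/
def om (b : OrthonormalBasis (Fin 3) ℝ E) (θ : ℝ) : E := Real.cos θ • b 1 + Real.sin θ • b 2

/-- polar coordinates about the axis `b 0`: `p = (s, θ)` -/
def pol (b : OrthonormalBasis (Fin 3) ℝ E) (p : ℝ × ℝ) (r : ℝ) : E := p.1 • b 0 + r • om b p.2

variable {b : OrthonormalBasis (Fin 3) ℝ E} {y : E}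

theorem dz_nonneg (y x : E) : 0 ≤ dz y x := norm_nonneg _

theorem dz_sq (hy : ‖y‖ = 1) (x : E) : dz y x ^ 2 = ‖x‖ ^ 2 - ⟪y, x⟫ ^ 2 := by
  rw [dz, norm_sub_sq_real, inner_smul_right, norm_smul, hy, real_inner_comm, Real.norm_eq_abs,
    mul_one, sq_abs]
  ring

theorem dz_le_norm (hy : ‖y‖ = 1) (x : E) : dz y x ≤ ‖x‖ :=
  (pow_le_pow_iff_left₀ (dz_nonneg y x) (norm_nonneg x) two_ne_zero).1
    (by rw [dz_sq hy]; nlinarith [sq_nonneg ⟪y, x⟫])

theorem dz_add_le (y x w : E) : dz y (x + w) ≤ dz y x + dz y w := by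
  have : x + w - ⟪y, x + w⟫ • y = (x - ⟪y, x⟫ • y) + (w - ⟪y, w⟫ • y) := by
    rw [inner_add_right, add_smul]; abel
  rw [dz, this]
  exact norm_add_le _ _

theorem dz_lip (hy : ‖y‖ = 1) (x w : E) : dz y x ≤ dz y w + ‖x - w‖ := by
  have := dz_add_le y w (x - w)
  rw [add_sub_cancel] at this
  linarith [dz_le_norm hy (x - w)]

theorem ax_lip (hy : ‖y‖ = 1) (x w : E) : ⟪y, x⟫ ≤ ⟪y, w⟫ + ‖x - w‖ := by
  have := real_inner_le_norm y (x - w)
  rw [inner_sub_right, hy] at this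
  linarith

theorem continuous_dz (y : E) : Continuous (dz y) := by unfold dz; fun_prop

theorem dz_axial (hy : ‖y‖ = 1) {o : E} (ho : ‖o‖ = 1) (h : ⟪y, o⟫ = 0) (s r : ℝ) :
    ⟪y, s • y + r • o⟫ = s ∧ dz y (s • y + r • o) = |r| := by
  have h1 : ⟪y, s • y + r • o⟫ = s := by
    rw [inner_add_right, inner_smul_right, inner_smul_right, h, real_inner_self_eq_norm_sq, hy]; ring
  refine ⟨h1, ?_⟩
  rw [dz, h1, add_sub_cancel_left, norm_smul, ho, mul_one, Real.norm_eq_abs]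

theorem inner_om (b : OrthonormalBasis (Fin 3) ℝ E) (θ : ℝ) : ⟪b 0, om b θ⟫ = 0 := by
  simp [om, inner_add_right, inner_smul_right, b.inner_eq_ite]

theorem norm_om (b : OrthonormalBasis (Fin 3) ℝ E) (θ : ℝ) : ‖om b θ‖ = 1 := by
  have : ‖om b θ‖ ^ 2 = 1 := by
    rw [om, norm_add_sq_real, norm_smul, norm_smul, inner_smul_left, inner_smul_right,
      b.inner_eq_ite, b.norm_eq_one, b.norm_eq_one]
    simp
  nlinarith [norm_nonneg (om b θ)]

theorem om_periodic (b : OrthonormalBasis (Fin 3) ℝ E) (θ : ℝ) :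
    om b (θ + 2 * Real.pi) = om b θ := by simp [om]

theorem ax_pol (b : OrthonormalBasis (Fin 3) ℝ E) (p : ℝ × ℝ) (r : ℝ) : ⟪b 0, pol b p r⟫ = p.1 :=
  (dz_axial (b.norm_eq_one 0) (norm_om b _) (inner_om b _) _ _).1

theorem dz_pol (b : OrthonormalBasis (Fin 3) ℝ E) (p : ℝ × ℝ) (r : ℝ) : dz (b 0) (pol b p r) = |r| :=
  (dz_axial (b.norm_eq_one 0) (norm_om b _) (inner_om b _) _ _).2

theorem pol_sub (b : OrthonormalBasis (Fin 3) ℝ E) (p : ℝ × ℝ) (r r' : ℝ) :
    pol b p r - pol b p r' = (r - r') • om b p.2 := by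
  rw [pol, pol, sub_smul]; abel

theorem exists_pol (b : OrthonormalBasis (Fin 3) ℝ E) (x : E) :
    ∃ θ, x = pol b (⟪b 0, x⟫, θ) (dz (b 0) x) := by
  set z : ℂ := ⟨⟪b 1, x⟫, ⟪b 2, x⟫⟩ with hz
  have h1 : x = pol b (⟪b 0, x⟫, z.arg) ‖z‖ := by
    have h2 := b.sum_repr' x
    rw [Fin.sum_univ_three] at h2
    rw [pol, om, smul_add, smul_smul, smul_smul, Complex.norm_mul_cos_arg, Complex.norm_mul_sin_arg,
      ← add_assoc]
    exact h2.symm
  refine ⟨z.arg, ?_⟩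
  have h3 := dz_pol b (⟪b 0, x⟫, z.arg) ‖z‖
  rw [← h1, abs_norm] at h3
  rw [h3]
  exact h1

theorem contDiff_pol (b : OrthonormalBasis (Fin 3) ℝ E) :
    ContDiff ℝ ∞ fun q : (ℝ × ℝ) × ℝ => pol b q.1 q.2 := by
  unfold pol om; fun_prop

theorem hasDerivAt_pol (b : OrthonormalBasis (Fin 3) ℝ E) (p : ℝ × ℝ) (r : ℝ) :
    HasDerivAt (pol b p) (om b p.2) r := by
  have := ((hasDerivAt_id r).smul_const (om b p.2)).const_add (p.1 • b 0)
  rw [one_smul] at this
  exact this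

theorem fderiv_pol (b : OrthonormalBasis (Fin 3) ℝ E) (q : (ℝ × ℝ) × ℝ) :
    fderiv ℝ (fun q : (ℝ × ℝ) × ℝ => pol b q.1 q.2) q (0, 1) = om b q.1.2 := by
  have h1 := (((contDiff_pol b).differentiable (by simp)) q).hasFDerivAt
  have h2 : HasDerivAt (fun r : ℝ => ((q.1, r) : (ℝ × ℝ) × ℝ)) (0, 1) q.2 :=
    (hasDerivAt_const _ _).prodMk (hasDerivAt_id _)
  exact (HasFDerivAt.comp_hasDerivAt q.2 (f := fun r : ℝ => ((q.1, r) : (ℝ × ℝ) × ℝ)) h1 h2).unique
    (hasDerivAt_pol b q.1 q.2)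

theorem sqrt2_bds : (7 / 5 : ℝ) < √2 ∧ √2 < (3 / 2 : ℝ) :=
  ⟨Real.lt_sqrt_of_sq_lt (by norm_num), Real.sqrt_lt' (by norm_num) |>.2 (by norm_num)⟩






end Crest.Agent.N250.EP
end
end

-- ▼ part N250/E/PC

/-!
Row 250, block E (helper94): from smooth convergence to a cylinder to uniform charts.
-/

set_option autoImplicit false

open Set Metric Filter
open scoped ContDiff Topology RealInnerProductSpace

noncomputable section

namespace Crest.Agent.N250.EP

open Crest.GeometryTopology.MCF (E gradX)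
open Crest.Agent.N221.Ex

/-- `Conv` along a filter gives a sequence of uniformly smooth defining functions -/
theorem conv_sub {α : Type} {l : Filter α} [l.NeBot] {Fk : α → Mv} {G : Mv} {Ω : Set ST}
    (h : Conv l Fk G Ω) {q : ST} (hq : q ∈ Ω) (hG : q ∈ G.M) :
    ∃ W φ, q ∈ W ∧ G.Loc W φ ∧ ∀ η : ℝ, closedBall q η ⊆ W → ∀ P : ℕ → α → Prop,
      (∀ m, ∀ᶠ k in l, P m k) → ∃ (j : ℕ → α) (ψ : ℕ → ST → ℝ), (∀ m, P m (j m)) ∧
        (∀ m, (Fk (j m)).Loc W (ψ m)) ∧ UB (fun _ => ball q η) ψ ∧ ∀ k m : ℕ, k ≤ m →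
          ∀ p ∈ closedBall q η, ‖iteratedFDeriv ℝ k (ψ m) p - iteratedFDeriv ℝ k φ p‖ ≤ 1 / (m + 1) := by
  obtain ⟨W, φ, φk, hW, hL, hk, hc⟩ := h.near q hq hG
  refine ⟨W, φ, hW, hL, fun η hη P hP => ?_⟩
  have hK := isCompact_closedBall q η
  have h1 : ∀ k m : ℕ, ∀ᶠ a in l, ∀ p ∈ closedBall q η,
      ‖iteratedFDeriv ℝ k (φk a) p - iteratedFDeriv ℝ k φ p‖ ≤ 1 / (m + 1) := fun k m => by
    have h2 := (tendstoLocallyUniformlyOn_iff_tendstoUniformlyOn_of_compact hK).1 ((hc k).mono hη)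
    filter_upwards [Metric.tendstoUniformlyOn_iff.1 h2 (1 / (m + 1)) (by positivity)] with a ha p hp
    have := ha p hp
    rw [dist_comm, dist_eq_norm] at this
    exact this.le
  obtain ⟨j, hj⟩ := diag (l := l) (P := fun m a => P m a ∧ (Fk a).Loc W (φk a) ∧ ∀ k ∈ Finset.range (m + 1),
      ∀ p ∈ closedBall q η, ‖iteratedFDeriv ℝ k (φk a) p - iteratedFDeriv ℝ k φ p‖ ≤ 1 / (m + 1))
    fun m => (hP m).and (hk.and ((eventually_all_finset _).2 fun k _ => h1 k m))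
  have h3 : ∀ k m : ℕ, k ≤ m → ∀ p ∈ closedBall q η,
      ‖iteratedFDeriv ℝ k (φk (j m)) p - iteratedFDeriv ℝ k φ p‖ ≤ 1 / (m + 1) := fun k m hkm =>
    (hj m m le_rfl).2.2 k (Finset.mem_range.2 (by omega))
  refine ⟨j, fun m => φk (j m), fun m => (hj m m le_rfl).1, fun m => (hj m m le_rfl).2.1,
    ub_diag hL.isOpen (fun m => (hj m m le_rfl).2.1.sm) hK hη isOpen_ball ball_subset_closedBall
      fun k => ?_, h3⟩
  obtain ⟨c, -, hb⟩ := (UB.of_compact (U := fun _ : Unit => ball q η) hL.isOpen hL.sm hK hη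
    (fun _ => isOpen_ball) fun _ => ball_subset_closedBall).bd k
  refine ⟨c + 1, fun m hm x hx => ?_⟩
  have h4 := h3 k m hm x (ball_subset_closedBall hx)
  have h5 : (1 : ℝ) / (m + 1) ≤ 1 := by
    rw [div_le_one (by positivity)]; linarith [Nat.cast_nonneg (α := ℝ) m]
  have h6 := norm_le_insert' (iteratedFDeriv ℝ k (φk (j m)) x) (iteratedFDeriv ℝ k φ x)
  linarith [hb () x hx]

/-- the round cylinder with axis `ℝ y` -/
def cyl (y : E) : Set E := {x | dz y x = √2}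

/-- the translates `S - λ y` converge to the cylinder (along a filter, for every sequence) -/
def CylLim (y : E) (S : Set E) : Prop :=
  ∀ lam : ℕ → ℝ, Tendsto lam atTop atTop →
    ∃ (l : Filter ℕ) (Fk : ℕ → Mv) (G : Mv) (Ω : Set ST) (t0 : ℝ), l.NeBot ∧ l ≤ atTop ∧
      (∀ x, (x, t0) ∈ Ω) ∧ G.sl t0 = cyl y ∧
      (∀ᶠ k in l, (Fk k).sl t0 = {x | x + lam k • y ∈ S}) ∧ Conv l Fk G Ω

variable {b : OrthonormalBasis (Fin 3) ℝ E} {y : E} {S : Set E}

theorem dz_proj (hy : ‖y‖ = 1) (x : E) (s : ℝ) : dz y (x - s • y) = dz y x := by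
  rw [dz, dz, inner_sub_right, inner_smul_right, real_inner_self_eq_norm_sq, hy]
  congr 1
  module

/-- far out, the points of `S` at bounded distance from the axis are close to the cylinder -/
theorem cyl_near (hy : ‖y‖ = 1) (h : CylLim y S) (D : ℝ) {δ : ℝ} (hδ : 0 < δ) :
    ∃ R : ℝ, ∀ x ∈ S, R ≤ ⟪y, x⟫ → dz y x ≤ D → |dz y x - √2| ≤ δ := by
  by_contra hc
  push Not at hc
  choose x hxS hx1 hx2 hx3 using fun j : ℕ => hc j
  obtain ⟨z, -, φ, hφ, hz⟩ := (isCompact_closedBall (0 : E) D).tendsto_subseq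
    (x := fun j => x j - ⟪y, x j⟫ • y) fun j => mem_closedBall_zero_iff.2 (hx2 j)
  obtain ⟨l, Fk, G, Ω, t0, hl, hle, hΩ, hG, hF, hC⟩ := h (fun j => ⟪y, x (φ j)⟫)
    (tendsto_atTop_mono (fun j => hx1 (φ j)) (tendsto_natCast_atTop_atTop.comp hφ.tendsto_atTop))
  have h1 : δ ≤ |dz y z - √2| :=
    ge_of_tendsto' ((((continuous_dz y).tendsto z).comp hz).sub_const _).abs fun j => by
      simp only [Function.comp_apply, dz_proj hy]
      exact (hx3 _).le
  have h2 : (z, t0) ∉ G.M := fun h2 => by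
    have : z ∈ cyl y := hG ▸ h2
    rw [show dz y z = √2 from this, sub_self, abs_zero] at h1
    linarith
  obtain ⟨U, hU, hd⟩ := hC.away _ (hΩ z) h2
  have h3 : ∀ᶠ j in l, (x (φ j) - ⟪y, x (φ j)⟫ • y, t0) ∈ U :=
    ((hz.prodMk_nhds tendsto_const_nhds).eventually hU).filter_mono hle
  obtain ⟨j, a1, a2, a3⟩ := (hF.and (hd.and h3)).exists
  refine disjoint_left.1 a2 a3 ?_
  change _ ∈ (Fk j).sl t0
  rw [a1]
  simpa using hxS _

/-- a defining function of the cylinder has a non zero radial derivative -/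
theorem cyl_radial {f : E → ℝ} {θ : ℝ} (hf : DifferentiableAt ℝ f (pol b (0, θ) √2))
    (h0 : ∀ᶠ x in 𝓝 (pol b (0, θ) √2), x ∈ cyl (b 0) → f x = 0)
    (hne : gradient f (pol b (0, θ) √2) ≠ 0) : fderiv ℝ f (pol b (0, θ) √2) (om b θ) ≠ 0 := by
  intro h
  set L := fderiv ℝ f (pol b (0, θ) √2) with hL
  have key : ∀ (c : ℝ → ℝ × ℝ) (t : ℝ) (v : E), c t = (0, θ) →
      HasDerivAt (fun t => pol b (c t) √2) v t → L v = 0 := fun c t v e hv => by
    have h1 : HasFDerivAt f L (pol b (c t) √2) := e ▸ hf.hasFDerivAt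
    have h2 := HasFDerivAt.comp_hasDerivAt t (f := fun t => pol b (c t) √2) h1 hv
    have h3 : Tendsto (fun t => pol b (c t) √2) (𝓝 t) (𝓝 (pol b (0, θ) √2)) := e ▸ hv.continuousAt
    have h4 : (fun _ => (0 : ℝ)) =ᶠ[𝓝 t] f ∘ fun t => pol b (c t) √2 := by
      filter_upwards [h3.eventually h0] with s hs
      exact (hs (by rw [cyl, mem_ofPred_eq, dz_pol, abs_of_nonneg (Real.sqrt_nonneg _)])).symm
    exact (h2.congr_of_eventuallyEq h4).unique (hasDerivAt_const t 0)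
  have h1 : L (b 0) = 0 := key (fun s => (s, θ)) 0 _ rfl (by
    have := ((hasDerivAt_id (0 : ℝ)).smul_const (b 0)).add_const (√2 • om b θ)
    rw [one_smul] at this
    exact this)
  have h2 : L (√2 • (-Real.sin θ • b 1 + Real.cos θ • b 2)) = 0 := key (fun s => (0, s)) θ _ rfl
    (((((Real.hasDerivAt_cos θ).smul_const (b 1)).add
      ((Real.hasDerivAt_sin θ).smul_const (b 2))).const_smul √2).const_add ((0 : ℝ) • b 0))
  rw [map_smul, smul_eq_mul, mul_eq_zero, or_iff_right (by positivity)] at h2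
  simp only [om, map_add, map_smul, smul_eq_mul] at h h2
  have h3 : L (b 1) = 0 := by
    linear_combination Real.cos θ * h - Real.sin θ * h2 - L (b 1) * Real.sin_sq_add_cos_sq θ
  have h4 : L (b 2) = 0 := by
    linear_combination Real.sin θ * h + Real.cos θ * h2 - L (b 2) * Real.sin_sq_add_cos_sq θ
  have h5 : L = 0 := by
    ext x
    rw [← b.sum_repr' x, Fin.sum_univ_three]
    simp [h1, h3, h4]
  exact hne (by rw [gradient, ← hL, h5, map_zero])

theorem fderiv_slice {φ : ST → ℝ} {x : E} {t : ℝ} (h : DifferentiableAt ℝ φ (x, t)) :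
    HasFDerivAt (fun z => φ (z, t)) ((fderiv ℝ φ (x, t)).comp (ContinuousLinearMap.inl ℝ E ℝ)) x :=
  h.hasFDerivAt.comp x (hasFDerivAt_prodMk_left x t)

theorem norm_fderiv_sub {X : Type} [NormedAddCommGroup X] [NormedSpace ℝ X] (f g : X → ℝ) (x : X) :
    ‖fderiv ℝ f x - fderiv ℝ g x‖ ≤ ‖iteratedFDeriv ℝ 1 f x - iteratedFDeriv ℝ 1 g x‖ := by
  refine ContinuousLinearMap.opNorm_le_bound _ (norm_nonneg _) fun v => ?_
  have := (iteratedFDeriv ℝ 1 f x - iteratedFDeriv ℝ 1 g x).le_opNorm fun _ => v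
  simpa using this

/-- UNIFORM CHARTS along a subsequence of any sequence of rays going to infinity -/
theorem cyl_chart (h : CylLim (b 0) S) (p : ℕ → ℝ × ℝ) (hp : ∀ j : ℕ, (j : ℝ) ≤ (p j).1) :
    ∃ η : ℝ, 0 < η ∧ η ≤ 1 / 4 ∧ ∃ (j : ℕ → ℕ) (ψ : ℕ → E → ℝ), (∀ m, m ≤ j m) ∧
      UB (fun m => ball (pol b (0, (p (j m)).2) √2) η) ψ ∧ ∀ m,
        |ψ m (pol b (0, (p (j m)).2) √2)| ≤ η / 8 ∧ ∀ x ∈ ball (pol b (0, (p (j m)).2) √2) η,
          (x + (p (j m)).1 • b 0 ∈ S ↔ ψ m x = 0) ∧ 1 / 2 ≤ fderiv ℝ (ψ m) x (om b (p (j m)).2) := by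
  obtain ⟨o, -, φ, hφ, ho⟩ := (isCompact_closedBall (0 : E) 1).tendsto_subseq
    (x := fun j => om b (p j).2) fun j => mem_closedBall_zero_iff.2 (norm_om b _).le
  obtain ⟨θ, rfl⟩ : ∃ θ, o = om b θ := by
    obtain ⟨θ, hθ⟩ := exists_pol b o
    have h1 : ⟪b 0, o⟫ = 0 := tendsto_nhds_unique (tendsto_const_nhds.inner ho)
      (by simp only [Function.comp_apply, inner_om]; exact tendsto_const_nhds)
    have h2 : ‖o‖ = 1 := tendsto_nhds_unique ho.norm
      (by simp only [Function.comp_apply, norm_om]; exact tendsto_const_nhds)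
    refine ⟨θ, ?_⟩
    rw [dz, h1, zero_smul, sub_zero, h2] at hθ
    simpa [pol] using hθ
  obtain ⟨l, Fk, G, Ω, t0, hl, hle, hΩ, hG, hF, hC⟩ := h (fun j => (p (φ j)).1)
    (tendsto_atTop_mono (fun j => hp (φ j)) (tendsto_natCast_atTop_atTop.comp hφ.tendsto_atTop))
  set x0 := pol b (0, θ) √2 with hx0
  have hcy : ∀ θ', pol b (0, θ') √2 ∈ cyl (b 0) := fun θ' => by
    rw [cyl, mem_ofPred_eq, dz_pol, abs_of_nonneg (Real.sqrt_nonneg _)]
  have hGm : ∀ x, (x, t0) ∈ G.M ↔ x ∈ cyl (b 0) := fun x => by rw [← hG]; rfl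
  obtain ⟨W, φ0, hW, hL, hsub⟩ := conv_sub hC (hΩ x0) ((hGm _).2 (hcy θ))
  have hWn := hL.isOpen.mem_nhds hW
  have hφ0 : ContDiffAt ℝ ∞ φ0 (x0, t0) := hL.sm.contDiffAt hWn
  have hd0 := fderiv_slice (hφ0.differentiableAt (by simp))
  have hne : fderiv ℝ φ0 (x0, t0) (om b θ, 0) ≠ 0 := by
    have := cyl_radial (b := b) (f := fun z => φ0 (z, t0)) hd0.differentiableAt (by
      filter_upwards [(continuousAt_id.prodMk continuousAt_const).eventually hWn] with x hx hc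
      exact (hL.mem _ hx).1 ((hGm x).2 hc)) (hL.ne _ hW)
    rwa [hd0.fderiv] at this
  set a := (fderiv ℝ φ0 (x0, t0) (om b θ, 0))⁻¹ with ha
  have hc1 : ContinuousAt (fun w : ST × E => a * fderiv ℝ φ0 w.1 (w.2, 0)) ((x0, t0), om b θ) :=
    continuousAt_const.mul ((ContinuousAt.comp (f := fun w : ST × E => w.1)
      (hφ0.continuousAt_fderiv (by simp)) continuousAt_fst).clm_apply
        (continuousAt_snd.prodMk continuousAt_const))
  have hc2 : ∀ᶠ w : ST × E in 𝓝 ((x0, t0), om b θ), w.1 ∈ W ∧ 3 / 4 < a * fderiv ℝ φ0 w.1 (w.2, 0) :=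
    Eventually.and (continuousAt_fst.preimage_mem_nhds hWn) (hc1.eventually (lt_mem_nhds (by
      simp only [ha]; rw [inv_mul_cancel₀ hne]; norm_num)))
  obtain ⟨ε, hε, hc3⟩ := Metric.eventually_nhds_iff_ball.1 hc2
  set η := min (ε / 4) (1 / 4) with hη
  have hη0 : 0 < η := lt_min (by positivity) (by norm_num)
  have hη1 : η ≤ ε / 4 := min_le_left _ _
  have hη2 : η ≤ 1 / 4 := min_le_right _ _
  have hc4 : ∀ q ∈ closedBall (x0, t0) (3 * η), ∀ v ∈ ball (om b θ) η,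
      q ∈ W ∧ 3 / 4 < a * fderiv ℝ φ0 q (v, 0) := fun q hq v hv =>
    hc3 (q, v) (by
      rw [← ball_prod_same]
      exact ⟨closedBall_subset_ball (by linarith) hq, ball_subset_ball (by linarith) hv⟩)
  obtain ⟨j, ψ, hP, hLk, hU, hcl⟩ := hsub (3 * η) (fun q hq => (hc4 q hq _ (mem_ball_self hη0)).1)
    (fun m k => m ≤ k ∧ om b (p (φ k)).2 ∈ ball (om b θ) η ∧
      (Fk k).sl t0 = {x | x + (p (φ k)).1 • b 0 ∈ S})
    fun m => ((eventually_ge_atTop m).filter_mono hle).and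
      (((ho.eventually (ball_mem_nhds _ hη0)).filter_mono hle).and hF)
  obtain ⟨m0, hm0⟩ := exists_nat_ge (8 * |a| / η + 1)
  have hsm : ∀ m : ℕ, |a| * (1 / ((m + m0 : ℕ) + 1)) ≤ η / 8 := fun m => by
    rw [mul_one_div, div_le_iff₀ (by positivity)]
    have h1 : 8 * |a| / η ≤ (m + m0 : ℕ) + 1 := by
      push_cast; linarith [Nat.cast_nonneg (α := ℝ) m]
    rw [div_le_iff₀ hη0] at h1
    linarith
  have hm1 : 1 ≤ m0 := by
    have : (1 : ℝ) ≤ m0 := le_trans (le_add_of_nonneg_left (by positivity)) hm0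
    exact_mod_cast this
  have hin : ∀ m, ∀ x ∈ ball (pol b (0, (p (φ (j m))).2) √2) η, (x, t0) ∈ ball (x0, t0) (3 * η) :=
    fun m x hx => by
    have h1 : dist (pol b (0, (p (φ (j m))).2) √2) x0 ≤ 2 * η := by
      have h2 := (hP m).2.1
      rw [mem_ball, dist_eq_norm] at h2
      rw [hx0, dist_eq_norm, pol, pol, add_sub_add_left_eq_sub, ← smul_sub, norm_smul,
        Real.norm_eq_abs, abs_of_nonneg (Real.sqrt_nonneg _)]
      exact mul_le_mul (by linarith [sqrt2_bds.2]) h2.le (norm_nonneg _) (by norm_num)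
    rw [mem_ball, Prod.dist_eq, dist_self, max_lt_iff]
    exact ⟨by linarith [dist_triangle x (pol b (0, (p (φ (j m))).2) √2) x0, mem_ball.1 hx], by linarith⟩
  refine ⟨η, hη0, hη2, fun m => φ (j (m + m0)), fun m x => a * ψ (m + m0) (x, t0),
    fun m => (le_self_add.trans (hP _).1).trans (hφ.id_le _), ?_, fun m => ⟨?_, fun x hx => ⟨?_, ?_⟩⟩⟩
  · have h1 := UB.comp (hU.mono (fun m => m + m0) (fun _ => isOpen_ball) fun _ => subset_rfl)
      (ub_affine (U := fun m => ball (pol b (0, (p (φ (j (m + m0)))).2) √2) η) (fun _ => isOpen_ball)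
        (ContinuousLinearMap.inl ℝ E ℝ) (fun _ => (0, -t0)) (M := ‖(x0, t0)‖ + 3 * η) fun m x hx => by
          have h2 := mem_ball_iff_norm.1 (hin _ x hx)
          have h3 := norm_le_insert' (x, t0) (x0, t0)
          simp only [ContinuousLinearMap.inl_apply, Prod.mk_sub_mk, sub_zero, zero_sub, neg_neg]
          linarith)
      fun m x hx => by simpa using hin _ x hx
    exact (h1.clm (a • ContinuousLinearMap.id ℝ ℝ)).congr fun m x _ => by simp
  · have hx := hin (m + m0) _ (mem_ball_self hη0)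
    have h1 := hcl 0 (m + m0) (Nat.zero_le _) _ (ball_subset_closedBall hx)
    have h2 : φ0 (pol b (0, (p (φ (j (m + m0)))).2) √2, t0) = 0 :=
      (hL.mem _ (hc4 _ (ball_subset_closedBall hx) _ (mem_ball_self hη0)).1).1 ((hGm _).2 (hcy _))
    have h3 := ((iteratedFDeriv ℝ 0 (ψ (m + m0)) (pol b (0, (p (φ (j (m + m0)))).2) √2, t0) -
      iteratedFDeriv ℝ 0 φ0 (pol b (0, (p (φ (j (m + m0)))).2) √2, t0)).le_opNorm fun _ => 0)
    simp only [sub_apply, iteratedFDeriv_zero_apply, h2, sub_zero, Finset.univ_eq_empty,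
      Finset.prod_empty, mul_one, Real.norm_eq_abs] at h3
    rw [abs_mul]
    exact (mul_le_mul_of_nonneg_left (h3.trans h1) (abs_nonneg a)).trans (hsm m)
  · have hxW := (hc4 _ (ball_subset_closedBall (hin _ x hx)) _ (mem_ball_self hη0)).1
    rw [mul_eq_zero, or_iff_right (inv_ne_zero hne), ← (hLk _).mem _ hxW]
    change _ ↔ x ∈ (Fk (j (m + m0))).sl t0
    rw [(hP _).2.2]
    rfl
  · have hq := ball_subset_closedBall (hin _ x hx)
    have h1 := (fderiv_slice ((hU.at (i := m + m0) (hin _ x hx)).differentiableAt (by simp))).const_mul a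
    rw [h1.fderiv]
    have h2 := (hc4 _ hq _ (hP (m + m0)).2.1).2
    have h3 := (norm_fderiv_sub _ _ _).trans (hcl 1 (m + m0) (by omega) _ hq)
    have h4 := (fderiv ℝ (ψ (m + m0)) (x, t0) - fderiv ℝ φ0 (x, t0)).le_opNorm
      (om b (p (φ (j (m + m0)))).2, 0)
    rw [Prod.norm_mk, norm_om, norm_zero, max_eq_left zero_le_one, mul_one, sub_apply,
      Real.norm_eq_abs] at h4
    have h5 := (mul_le_mul_of_nonneg_left (h4.trans h3) (abs_nonneg a)).trans (hsm m)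
    rw [← abs_mul, mul_sub] at h5
    simp only [smul_apply, ContinuousLinearMap.comp_apply, ContinuousLinearMap.inl_apply, smul_eq_mul]
    linarith [(abs_le.1 h5).1]

end Crest.Agent.N250.EP
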