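import Crest.Agent.N250.Wk.Speed0
import Mathlib
import Crest.Agent.N250.Tr.Inst
import Crest.Agent.N250.T.Same
import Crest.Agent.N250.T.CFl
import Crest.Agent.N250.Br.Sc
import Crest.Agent.N250.E.Law
import Crest.Agent.N250.E.Pol
import Crest.Agent.N250.Defs
import Crest.Agent.R086.BFlow
import Crest.Agent.N250.E.PC
import Crest.Agent.N250.Lim.A

-- ▼ part N250/Wk/Speed
section

/-!
# Row 250 (helper92): speed of self-similar test integrals against the drop of the Gaussian area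
-/

set_option autoImplicit false
open MeasureTheory Set Filter Topology
open scoped ContDiff InnerProductSpace
open Crest.GeometryTopology.MCF

noncomputable section

namespace Crest.Agent.N250.Wk

variable {F : Mv} {I : Set ℝ} {Λ ρ B : ℝ} {f : E → ℝ}

/-- smooth test function, supported in `B(0, ρ)`, with `C¹` norm at most `B` -/
structure Tf (f : E → ℝ) (ρ B : ℝ) : Prop where
  sm : ContDiff ℝ ∞ f
  zero : ∀ y, ρ ≤ ‖y‖ → f y = 0
  le : ∀ y, |f y| ≤ B
  dle : ∀ y, ‖fderiv ℝ f y‖ ≤ B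

theorem Tf.dzero (h : Tf f ρ B) {y : E} (hy : ρ + 1 ≤ ‖y‖) : fderiv ℝ f y = 0 := by
  have : f =ᶠ[𝓝 y] fun _ => 0 := by
    filter_upwards [(continuous_norm.tendsto y).eventually
      (lt_mem_nhds (show ρ < ‖y‖ by linarith))] with z hz
    exact h.zero z hz.le
  rw [this.fderiv_eq]
  simp

theorem Tf.nonneg (h : Tf f ρ B) : 0 ≤ B := (abs_nonneg _).trans (h.le 0)

theorem le_norm_sc {p : ST} (hp : p.2 < 0) {c : ℝ} (h : c * √(-p.2) ≤ ‖p.1‖) :
    c ≤ ‖(√(-p.2))⁻¹ • p.1‖ := by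
  have hs : 0 < √(-p.2) := Real.sqrt_pos.2 (by linarith)
  rw [norm_smul, norm_inv, Real.norm_eq_abs, abs_of_pos hs, le_inv_mul_iff₀ hs]
  linarith

theorem Tf.ss_zero (h : Tf f ρ B) {p : ST} (hp : p.2 < 0) (hx : (ρ + 1) * √(-p.2) ≤ ‖p.1‖) :
    ss f p = 0 ∧ ∀ v, fderiv ℝ (ss f) p (v, 0) = 0 := by
  have := le_norm_sc hp hx
  refine ⟨by rw [ss, h.zero _ (by linarith), zero_div], fun v => ?_⟩
  rw [ss_sp h.sm hp, h.dzero this]
  simp

theorem cont_H (hF : F.Reg) : ContinuousOn F.H F.M := by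
  have : F.H = fun p => ∑ a, F.A a a p := by
    funext p
    simp [Mv.H, Finset.sum_apply]
  rw [this]
  exact continuousOn_finsetSum _ fun a _ => (Tr.sm_D hF (Tr.sm_nu hF a) a).continuousOn

theorem cont_dev (hF : F.Reg) (hn : ∀ p ∈ F.M, p.2 < 0) : ContinuousOn (F.dev 0) F.M := by
  refine (cont_H hF).sub (ContinuousOn.div ?_ (by fun_prop) fun p hp => ?_)
  · exact ContinuousOn.inner (𝕜 := ℝ) (f := fun p : ST => p.1 - (0 : ST).1) (by fun_prop)
      (Tr.sm_n hF).continuousOn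
  · have := hn p hp
    simp only [Prod.snd_zero]
    linarith

theorem cont_gn (hF : F.Reg) (hn : ∀ p ∈ F.M, p.2 < 0) (hf : ContDiff ℝ ∞ f) :
    ContinuousOn (gn F f) F.M := by
  refine ContinuousOn.clm_apply (fun p hp => ?_)
    ((Tr.sm_n hF).continuousOn.prodMk continuousOn_const)
  exact ((ss_at hf (hn p hp)).continuousAt_fderiv (by simp)).continuousWithinAt

/-- the integrand of the first variation -/
def uu (F : Mv) (f : E → ℝ) (p : ST) : ℝ := -(F.dev 0 p * (gn F f p + ss f p * F.H p))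

/-- first variation of the self-similar test integral -/
theorem ss_deriv (hT : TransS) (hD : DivS) (hI : Tm I) (hF : Fl F I Λ) (hf : Tf f ρ B) {t : ℝ}
    (ht : t ∈ I) : HasDerivAt (fun s => ∫ x, ss f (x, s) ∂F.mu s)
      (∫ x, uu F f (x, t) ∂F.mu t) t := by
  have hn : ∀ p ∈ F.M, p.2 < 0 := fun p hp => hI.neg _ (hF.time p hp)
  have ht0 := hI.neg t ht
  have hR := hF.mcf.1
  obtain ⟨δ, hδ, hb⟩ := Metric.isOpen_iff.1 hI.isOpen t ht
  have ha : t - δ / 2 ∈ I := hb (by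
    rw [Metric.mem_ball, Real.dist_eq, abs_lt]; constructor <;> linarith)
  have hab : Icc (t - δ / 2) (t / 2) ⊆ I := fun s hs => hI.up _ ha s hs.1 (by linarith [hs.2])
  have hsm : F.Sm (ss f) := fun p hp => (ss_at hf.sm (hn p hp)).contDiffWithinAt
  have hsx : ∀ a, F.Sm (sx f a) := fun a p hp => (sx_at hf.sm a (hn p hp)).contDiffWithinAt
  have hcs : F.CS (ss f) (Ioo (t - δ / 2) (t / 2)) := by
    refine cs_of hF (R := |ρ + 1| * √(-(t - δ / 2))) hab Ioo_subset_Icc_self fun p hp h1 h2 =>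
      (hf.ss_zero (hn p hp) (le_trans ?_ h2)).1
    exact mul_le_mul (le_abs_self _) (Real.sqrt_le_sqrt (by linarith [h1.1])) (Real.sqrt_nonneg _)
      (abs_nonneg _)
  have h1 := hT F hR (ss f) _ isOpen_Ioo hsm hcs t ⟨by linarith, by linarith⟩
  refine h1.congr_deriv ?_
  have hz : ∀ x : E, (ρ + 1) * √(-t) ≤ ‖x‖ →
      ss f (x, t) = 0 ∧ ∀ v, fderiv ℝ (ss f) (x, t) (v, 0) = 0 :=
    fun x hx => hf.ss_zero (p := (x, t)) ht0 hx
  have iu : Integrable (fun x => uu F f (x, t)) (F.mu t) := by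
    refine intg hF (R := (ρ + 1) * √(-t)) (((cont_dev hR hn).mul ((cont_gn hR hn hf.sm).add
      (hsm.continuousOn.mul (cont_H hR)))).neg) fun x _ hx => ?_
    simp [gn, (hz x hx).1, (hz x hx).2]
  have i1 : ∀ a, Integrable (fun x => F.D a (sx f a) (x, t)) (F.mu t) := fun a => by
    refine intg hF (R := (ρ + 1) * √(-t)) (Tr.sm_D hR (hsx a) a).continuousOn fun x hM hx => ?_
    rw [D_sx hR hf.sm a hM ht0, (hz x hx).1, (hz x hx).2]
    simp
  have i2 : ∀ a, Integrable (fun x => sx f a (x, t) * F.H (x, t) * F.nu a (x, t)) (F.mu t) :=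
    fun a => by
    refine intg hF (R := (ρ + 1) * √(-t)) (u := fun p => sx f a p * F.H p * F.nu a p)
      (((hsx a).continuousOn.mul (cont_H hR)).mul (Tr.sm_nu hR a).continuousOn) fun x _ hx => ?_
    simp [sx, (hz x hx).1]
  have d0 : ∀ a, ∫ x, (F.D a (sx f a) (x, t) - sx f a (x, t) * F.H (x, t) * F.nu a (x, t))
      ∂F.mu t = 0 := fun a => by
    rw [integral_sub (i1 a) (i2 a), sub_eq_zero]
    refine hD F hR (sx f a) t a (hsx a) (cs_of hF (a := t) (b := t) (R := (ρ + 1) * √(-t))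
      (by simpa using ht) (by simp) fun p hp h1 h2 => ?_)
    rw [mem_singleton_iff] at h1
    rw [sx, (hf.ss_zero (hn p hp) (by rwa [h1])).1, zero_mul]
  calc ∫ x, (F.Dt (ss f) (x, t) + ss f (x, t) * F.V (x, t) * F.H (x, t)) ∂F.mu t
      = ∫ x, (uu F f (x, t) + (2 * -t)⁻¹ * ∑ a, (F.D a (sx f a) (x, t) -
          sx f a (x, t) * F.H (x, t) * F.nu a (x, t))) ∂F.mu t := by
        refine integral_congr_ae ?_
        filter_upwards [ae_sl hF t] with x hx
        exact split hF.mcf hf.sm hx ht0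
    _ = ∫ x, uu F f (x, t) ∂F.mu t := by
        have i3 : ∀ a, Integrable (fun x => F.D a (sx f a) (x, t) -
            sx f a (x, t) * F.H (x, t) * F.nu a (x, t)) (F.mu t) := fun a => (i1 a).sub (i2 a)
        rw [integral_add iu ((integrable_finsetSum _ fun a _ => i3 a).const_mul _),
          integral_const_mul, integral_finsetSum _ fun a _ => i3 a]
        simp only [d0, Finset.sum_const_zero, mul_zero, add_zero]

/-- the constant `4 π e^{(ρ+1)²/4}` -/
def cG (ρ : ℝ) : ℝ := 4 * Real.pi * Real.exp ((ρ + 1) ^ 2 / 4)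

theorem cG_pos (ρ : ℝ) : 0 < cG ρ := by
  have := Real.pi_pos
  unfold cG
  positivity

/-- pointwise bound of the integrand -/
theorem uu_le (hR : F.Reg) (hf : Tf f ρ B) (hρ : 0 ≤ ρ) {p : ST} (hM : p ∈ F.M) (hp : p.2 < 0)
    {ε : ℝ} (hε : 0 < ε) : |uu F f p| ≤ B * (1 + ε⁻¹) * cG ρ * (F.dev 0 p ^ 2 * Phi 0 p) +
      (Metric.ball (0 : E) ((ρ + 1) * √(-p.2))).indicator
        (fun _ => B * ε * (ρ + 2) ^ 2 / (-p.2) ^ 2) p.1 := by
  have hB := hf.nonneg
  have hτ : 0 < -p.2 := by linarith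
  have hcG := cG_pos ρ
  have hpi := Real.pi_pos
  have hΦ : 0 < Phi 0 p := by
    simp only [Phi, gau, Prod.snd_zero, zero_sub]
    positivity
  by_cases hx : (ρ + 1) * √(-p.2) ≤ ‖p.1‖
  · have hz := hf.ss_zero hp hx
    rw [indicator_of_notMem (by simpa using hx)]
    simp only [uu, gn, hz.1, hz.2]
    simp only [zero_mul, add_zero, mul_zero, neg_zero, abs_zero]
    positivity
  rw [not_le] at hx
  rw [indicator_of_mem (by simpa using hx)]
  set s := √(-p.2) with hs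
  have hs0 : 0 < s := Real.sqrt_pos.2 hτ
  have hss : -p.2 = s ^ 2 := (Real.sq_sqrt hτ.le).symm
  have hn := Tr.n_unit hR hM
  have b1 : |ss f p| ≤ B / s ^ 2 := by
    rw [ss, abs_div, abs_of_pos hτ, hss]
    exact div_le_div_of_nonneg_right (hf.le _) (by positivity)
  have b2 : |gn F f p| ≤ B / s ^ 3 := by
    rw [gn, ss_sp hf.sm hp, abs_div, abs_of_pos hτ, abs_mul, ← hs, hss, abs_of_pos (inv_pos.2 hs0)]
    have : |fderiv ℝ f (s⁻¹ • p.1) (F.n p)| ≤ B := by
      have := (fderiv ℝ f (s⁻¹ • p.1)).le_opNorm (F.n p)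
      rw [hn, mul_one, Real.norm_eq_abs] at this
      exact this.trans (hf.dle _)
    calc s⁻¹ * |fderiv ℝ f (s⁻¹ • p.1) (F.n p)| / s ^ 2 ≤ s⁻¹ * B / s ^ 2 := by gcongr
      _ = B / s ^ 3 := by field_simp
  have b3 : |F.xn 0 p| ≤ (ρ + 1) * s := by
    have := abs_real_inner_le_norm (p.1 - 0) (F.n p)
    rw [hn, mul_one, sub_zero p.1] at this
    simp only [Mv.xn, sub_zero]
    linarith
  have b4 : 1 / s ^ 2 ≤ cG ρ * Phi 0 p := by
    have e : Phi 0 p = (4 * Real.pi * s ^ 2)⁻¹ * Real.exp (-‖p.1‖ ^ 2 / (4 * s ^ 2)) := by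
      simp only [Phi, gau, Prod.snd_zero, Prod.fst_zero, zero_sub, sub_zero, hss]
    have h1 : ‖p.1‖ ^ 2 ≤ ((ρ + 1) * s) ^ 2 := pow_le_pow_left₀ (norm_nonneg _) hx.le 2
    have h2 : 1 ≤ Real.exp ((ρ + 1) ^ 2 / 4) * Real.exp (-‖p.1‖ ^ 2 / (4 * s ^ 2)) := by
      rw [← Real.exp_add]
      refine Real.one_le_exp ?_
      rw [neg_div, ← sub_eq_add_neg, sub_nonneg, div_le_iff₀ (by positivity)]
      nlinarith
    calc 1 / s ^ 2 ≤ (Real.exp ((ρ + 1) ^ 2 / 4) * Real.exp (-‖p.1‖ ^ 2 / (4 * s ^ 2))) / s ^ 2 := by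
          gcongr
      _ = cG ρ * Phi 0 p := by
          rw [e, cG]
          field_simp
  set d := F.dev 0 p with hd
  have eH : F.H p = d + F.xn 0 p / (2 * s ^ 2) := by
    simp only [hd, Mv.dev, Prod.fst_zero, Prod.snd_zero, zero_sub, hss]
    ring
  have b5 : |gn F f p + ss f p * (F.xn 0 p / (2 * s ^ 2))| ≤ B * (ρ + 2) / s ^ 3 := by
    have h1 : |ss f p * (F.xn 0 p / (2 * s ^ 2))| ≤ B / s ^ 2 * ((ρ + 1) * s / (2 * s ^ 2)) := by
      rw [abs_mul, abs_div, abs_of_pos (show (0 : ℝ) < 2 * s ^ 2 by positivity)]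
      gcongr
    have h2 : B / s ^ 2 * ((ρ + 1) * s / (2 * s ^ 2)) ≤ B * (ρ + 1) / s ^ 3 := by
      rw [show B / s ^ 2 * ((ρ + 1) * s / (2 * s ^ 2)) = B * (ρ + 1) / s ^ 3 / 2 by field_simp]
      have : 0 ≤ B * (ρ + 1) / s ^ 3 := by positivity
      linarith
    calc _ ≤ |gn F f p| + |ss f p * (F.xn 0 p / (2 * s ^ 2))| := abs_add_le _ _
      _ ≤ B / s ^ 3 + B * (ρ + 1) / s ^ 3 := by linarith
      _ = B * (ρ + 2) / s ^ 3 := by ring
  have e1 : uu F f p = -(d * (gn F f p + ss f p * (F.xn 0 p / (2 * s ^ 2))) + ss f p * d ^ 2) := by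
    rw [uu, ← hd, eH]
    ring
  have b6 : |uu F f p| ≤ |d| * (B * (ρ + 2) / s ^ 3) + B / s ^ 2 * d ^ 2 := by
    rw [e1, abs_neg]
    refine (abs_add_le _ _).trans (add_le_add ?_ ?_)
    · rw [abs_mul]
      gcongr
    · rw [abs_mul, abs_of_nonneg (sq_nonneg d)]
      gcongr
  have b7 : |d| * ((ρ + 2) / s ^ 3) ≤ ε⁻¹ * (d ^ 2 / s ^ 2) + ε * (ρ + 2) ^ 2 / (s ^ 2) ^ 2 := by
    have h := sq_nonneg (|d| / s - ε * ((ρ + 2) / s ^ 2))
    have e2 : ε⁻¹ * (d ^ 2 / s ^ 2) + ε * (ρ + 2) ^ 2 / (s ^ 2) ^ 2 - 2 * (|d| * ((ρ + 2) / s ^ 3)) =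
        ε⁻¹ * (|d| / s - ε * ((ρ + 2) / s ^ 2)) ^ 2 := by
      rw [← sq_abs d]
      field_simp
      ring
    have h3 : 0 ≤ |d| * ((ρ + 2) / s ^ 3) := by positivity
    have h4 : 0 ≤ ε⁻¹ * (|d| / s - ε * ((ρ + 2) / s ^ 2)) ^ 2 := by positivity
    linarith
  have b8 : d ^ 2 / s ^ 2 ≤ cG ρ * (d ^ 2 * Phi 0 p) := by
    calc d ^ 2 / s ^ 2 = d ^ 2 * (1 / s ^ 2) := by ring
      _ ≤ d ^ 2 * (cG ρ * Phi 0 p) := by gcongr
      _ = _ := by ring
  rw [hss]
  calc |uu F f p| ≤ B * (|d| * ((ρ + 2) / s ^ 3)) + B * (d ^ 2 / s ^ 2) := by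
        refine b6.trans (le_of_eq ?_)
        ring
    _ ≤ B * (ε⁻¹ * (d ^ 2 / s ^ 2) + ε * (ρ + 2) ^ 2 / (s ^ 2) ^ 2) + B * (d ^ 2 / s ^ 2) := by
        gcongr
    _ = B * (1 + ε⁻¹) * (d ^ 2 / s ^ 2) + B * ε * (ρ + 2) ^ 2 / (s ^ 2) ^ 2 := by ring
    _ ≤ B * (1 + ε⁻¹) * (cG ρ * (d ^ 2 * Phi 0 p)) + B * ε * (ρ + 2) ^ 2 / (s ^ 2) ^ 2 := by
        gcongr
    _ = _ := by ring

/-- slice bound -/
theorem uu_int_le (hF : Fl F I Λ) (hf : Tf f ρ B) (hρ : 0 ≤ ρ) {t : ℝ} (ht : t < 0)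
    {ε : ℝ} (hε : 0 < ε) : ‖∫ x, uu F f (x, t) ∂F.mu t‖ₑ ≤
      ENNReal.ofReal (B * (1 + ε⁻¹) * cG ρ) *
        ∫⁻ x, ENNReal.ofReal (F.dev 0 (x, t) ^ 2 * Phi 0 (x, t)) ∂F.mu t +
      ENNReal.ofReal (B * ε * (ρ + 2) ^ 4 * |Λ| / (-t)) := by
  have hB := hf.nonneg
  have hcG := cG_pos ρ
  have hτ : 0 < -t := by linarith
  have hs0 : 0 < √(-t) := Real.sqrt_pos.2 hτ
  refine (enorm_integral_le_lintegral_enorm _).trans ?_
  calc ∫⁻ x, ‖uu F f (x, t)‖ₑ ∂F.mu t
      ≤ ∫⁻ x, (ENNReal.ofReal (B * (1 + ε⁻¹) * cG ρ) *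
          ENNReal.ofReal (F.dev 0 (x, t) ^ 2 * Phi 0 (x, t)) +
          (Metric.ball (0 : E) ((ρ + 1) * √(-t))).indicator
            (fun _ => ENNReal.ofReal (B * ε * (ρ + 2) ^ 2 / (-t) ^ 2)) x) ∂F.mu t := by
        refine lintegral_mono_ae ?_
        filter_upwards [ae_sl hF t] with x hx
        rw [Real.enorm_eq_ofReal_abs]
        refine (ENNReal.ofReal_le_ofReal (uu_le hF.mcf.1 hf hρ hx ht hε)).trans
          (ENNReal.ofReal_add_le.trans (add_le_add ?_ ?_))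
        · rw [ENNReal.ofReal_mul (by positivity)]
        · by_cases h : x ∈ Metric.ball (0 : E) ((ρ + 1) * √(-t))
          · simp only [indicator_of_mem h, le_refl]
          · simp only [indicator_of_notMem h, ENNReal.ofReal_zero, le_refl]
    _ = ENNReal.ofReal (B * (1 + ε⁻¹) * cG ρ) *
          ∫⁻ x, ENNReal.ofReal (F.dev 0 (x, t) ^ 2 * Phi 0 (x, t)) ∂F.mu t +
          ENNReal.ofReal (B * ε * (ρ + 2) ^ 2 / (-t) ^ 2) *
            F.mu t (Metric.ball (0 : E) ((ρ + 1) * √(-t))) := by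
        rw [lintegral_add_right _ (measurable_const.indicator measurableSet_ball),
          lintegral_const_mul' _ _ ENNReal.ofReal_ne_top, lintegral_indicator measurableSet_ball,
          setLIntegral_const]
    _ ≤ _ := by
        gcongr
        refine (mul_le_mul_right (hF.ar t 0 _ (by positivity)) _).trans ?_
        rw [← ENNReal.ofReal_mul (by positivity)]
        refine ENNReal.ofReal_le_ofReal ?_
        rw [mul_pow, Real.sq_sqrt hτ.le]
        calc B * ε * (ρ + 2) ^ 2 / (-t) ^ 2 * (Λ * ((ρ + 1) ^ 2 * -t))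
            ≤ B * ε * (ρ + 2) ^ 2 / (-t) ^ 2 * (|Λ| * ((ρ + 2) ^ 2 * -t)) := by
              gcongr
              · exact le_abs_self Λ
              · norm_num
          _ = _ := by field_simp

/-- the self-similar test integral at scale `r`: `r⁻² ∫ f (x / r) dμ_{-r²}` -/
def Jr (F : Mv) (f : E → ℝ) (r : ℝ) : ℝ := ∫ x, ss f (x, -r ^ 2) ∂F.mu (-r ^ 2)

theorem speed_eps (hT : TransS) (hD : DivS) (hH : HuiskenS) (hI : Tm I) (hF : Fl F I Λ)
    (hf : Tf f ρ B) (hρ : 0 ≤ ρ) {r s Q : ℝ} (hr : 0 < r) (hrs : r ≤ s) (hQ : s ≤ Q * r)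
    (hs : -s ^ 2 ∈ I) {ε : ℝ} (hε : 0 < ε) :
    |Jr F f r - Jr F f s| ≤ B * (1 + ε⁻¹) * cG ρ * (F.Fg 0 s - F.Fg 0 r) +
      B * ε * (ρ + 2) ^ 4 * |Λ| * Q ^ 2 := by
  have hB := hf.nonneg
  have hcG := cG_pos ρ
  have h2 : r ^ 2 ≤ s ^ 2 := pow_le_pow_left₀ hr.le hrs 2
  have h0 : 0 < r ^ 2 := by positivity
  have hle : -s ^ 2 ≤ -r ^ 2 := by linarith
  have hsub : Icc (-s ^ 2) (-r ^ 2) ⊆ I := fun t ht => hI.up _ hs t ht.1 (by linarith [ht.2])
  have hD0 : 0 ≤ F.Fg 0 s - F.Fg 0 r := sub_nonneg.2 (Lim.fg_mono hH hI hF 0 hr hrs hs)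
  have hst : F.stI (fun p => F.dev 0 p ^ 2 * Phi 0 p) (-s ^ 2) (-r ^ 2) =
      ENNReal.ofReal (F.Fg 0 s - F.Fg 0 r) := by
    have := (hH F I Λ hI.isOpen hF 0 (-s ^ 2) (-r ^ 2) hle (by simpa using h0) hsub).2
    simpa [Mv.Fg] using this
  set J : ℝ → ℝ := fun t => ∫ x, ss f (x, t) ∂F.mu t with hJ
  have hd : ∀ t ∈ Icc (-s ^ 2) (-r ^ 2), HasDerivAt J (deriv J t) t := fun t ht =>
    (ss_deriv hT hD hI hF hf (hsub ht)).differentiableAt.hasDerivAt
  have hb : ∫⁻ t in Ioo (-s ^ 2) (-r ^ 2), ‖deriv J t‖ₑ ≤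
      ENNReal.ofReal (B * (1 + ε⁻¹) * cG ρ * (F.Fg 0 s - F.Fg 0 r) +
        B * ε * (ρ + 2) ^ 4 * |Λ| * Q ^ 2) := by
    calc ∫⁻ t in Ioo (-s ^ 2) (-r ^ 2), ‖deriv J t‖ₑ
        ≤ ∫⁻ t in Ioo (-s ^ 2) (-r ^ 2), (ENNReal.ofReal (B * (1 + ε⁻¹) * cG ρ) *
            ∫⁻ x, ENNReal.ofReal (F.dev 0 (x, t) ^ 2 * Phi 0 (x, t)) ∂F.mu t +
            ENNReal.ofReal (B * ε * (ρ + 2) ^ 4 * |Λ| / r ^ 2)) := by
          refine setLIntegral_mono' measurableSet_Ioo fun t ht => ?_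
          rw [(ss_deriv hT hD hI hF hf (hsub (Ioo_subset_Icc_self ht))).deriv]
          refine (uu_int_le hF hf hρ (by linarith [ht.2]) hε).trans ?_
          gcongr
          linarith [ht.2]
      _ = ENNReal.ofReal (B * (1 + ε⁻¹) * cG ρ) * ENNReal.ofReal (F.Fg 0 s - F.Fg 0 r) +
            ENNReal.ofReal (B * ε * (ρ + 2) ^ 4 * |Λ| / r ^ 2) *
              ENNReal.ofReal (-r ^ 2 - -s ^ 2) := by
          rw [lintegral_add_right _ measurable_const,
            lintegral_const_mul' _ _ ENNReal.ofReal_ne_top, setLIntegral_const, Real.volume_Ioo,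
            ← hst, Mv.stI]
      _ ≤ _ := by
          rw [← ENNReal.ofReal_mul (by positivity), ← ENNReal.ofReal_mul (by positivity),
            ← ENNReal.ofReal_add (by positivity) (mul_nonneg (by positivity) (by linarith))]
          refine ENNReal.ofReal_le_ofReal (add_le_add le_rfl ?_)
          have h3 : s ^ 2 ≤ (Q * r) ^ 2 := pow_le_pow_left₀ (by linarith) hQ 2
          calc B * ε * (ρ + 2) ^ 4 * |Λ| / r ^ 2 * (-r ^ 2 - -s ^ 2)
              ≤ B * ε * (ρ + 2) ^ 4 * |Λ| / r ^ 2 * (Q * r) ^ 2 := by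
                gcongr
                linarith
            _ = _ := by field_simp
  have hi : IntervalIntegrable (deriv J) volume (-s ^ 2) (-r ^ 2) := by
    rw [intervalIntegrable_iff_integrableOn_Ioo_of_le hle]
    exact ⟨(measurable_deriv J).aestronglyMeasurable, hb.trans_lt ENNReal.ofReal_lt_top⟩
  have e := intervalIntegral.integral_eq_sub_of_hasDerivAt
    (fun t ht => hd t (by rwa [uIcc_of_le hle] at ht)) hi
  rw [intervalIntegral.integral_of_le hle, integral_Ioc_eq_integral_Ioo] at e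
  have h5 := (enorm_integral_le_lintegral_enorm _).trans hb
  rw [e, Real.enorm_eq_ofReal_abs, ENNReal.ofReal_le_ofReal_iff (by positivity)] at h5
  exact h5

/-- the constant of `speed` -/
def cS (ρ Λ Q : ℝ) : ℝ := cG ρ + (ρ + 2) ^ 4 * |Λ| * Q ^ 2

theorem cS_pos (ρ Λ Q : ℝ) : 0 < cS ρ Λ Q := by
  have := cG_pos ρ
  unfold cS
  positivity

/-- **speed of test integrals** -/
theorem speed (hT : TransS) (hD : DivS) (hH : HuiskenS) (hI : Tm I) (hF : Fl F I Λ)
    (hf : Tf f ρ B) (hρ : 0 ≤ ρ) {r s Q : ℝ} (hr : 0 < r) (hrs : r ≤ s) (hQ : s ≤ Q * r)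
    (hs : -s ^ 2 ∈ I) :
    |Jr F f r - Jr F f s| ≤
      cS ρ Λ Q * B * ((F.Fg 0 s - F.Fg 0 r) + √(F.Fg 0 s - F.Fg 0 r)) := by
  have hB := hf.nonneg
  have hcG := cG_pos ρ
  have hD0 : 0 ≤ F.Fg 0 s - F.Fg 0 r := sub_nonneg.2 (Lim.fg_mono hH hI hF 0 hr hrs hs)
  have h := fun ε (hε : 0 < ε) => speed_eps hT hD hH hI hF hf hρ hr hrs hQ hs hε
  set D := F.Fg 0 s - F.Fg 0 r with hD'
  set c := (ρ + 2) ^ 4 * |Λ| * Q ^ 2 with hc
  have hc0 : 0 ≤ c := by positivity
  rcases hD0.eq_or_lt with h0 | h0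
  · rw [← h0]
    simp only [Real.sqrt_zero, add_zero, mul_zero]
    refine le_of_forall_pos_le_add fun η hη => ?_
    have h1 := h (η / (B * c + 1)) (by positivity)
    rw [← h0] at h1
    refine h1.trans ?_
    rw [mul_zero, zero_add, zero_add, show B * (η / (B * c + 1)) * (ρ + 2) ^ 4 * |Λ| * Q ^ 2 =
      η * (B * c / (B * c + 1)) by rw [hc]; ring]
    have : B * c / (B * c + 1) ≤ 1 := by
      rw [div_le_one (by positivity)]
      linarith
    nlinarith
  · have hs0 : 0 < √D := Real.sqrt_pos.2 h0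
    have e : (√D)⁻¹ * D = √D := by
      rw [inv_mul_eq_div, div_eq_iff hs0.ne', Real.mul_self_sqrt hD0]
    refine (h _ hs0).trans ?_
    calc B * (1 + (√D)⁻¹) * cG ρ * D + B * √D * (ρ + 2) ^ 4 * |Λ| * Q ^ 2
        = cG ρ * B * (D + (√D)⁻¹ * D) + c * B * √D := by rw [hc]; ring
      _ ≤ cG ρ * B * (D + √D) + c * B * (D + √D) := by
          rw [e]
          gcongr
          linarith
      _ = _ := by rw [cS, ← hc]; ring

end Crest.Agent.N250.Wk

end
end

-- ▼ part N250/R/Disc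
section
/-! Row 250, block R3: the discrete Łojasiewicz argument with a memory term, and the abstract
finite length theorem (continuity argument).  Pure real analysis. (helper63) -/
set_option autoImplicit false
noncomputable section
namespace Crest.Agent.N250.R
open Set Finset Filter Topology

/-- one step: `x ≤ K (x-y)^q` gives `√(x-y) ≤ K' (x^β - y^β)`, `β = 1 - 1/(2q)`. -/
theorem disc_step {x y K q : ℝ} (hq : 1/2 < q) (hK : 0 < K) (hy : 0 ≤ y) (hxy : y ≤ x)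
    (h : x ≤ K * (x - y) ^ q) :
    √(x - y) ≤ K ^ (1/(2*q)) / (1 - 1/(2*q)) * (x ^ (1 - 1/(2*q)) - y ^ (1 - 1/(2*q))) := by
  set g := 1/(2*q) with hg
  have hq0 : 0 < q := by linarith
  have hg0 : 0 < g := by positivity
  have hg1 : g < 1 := by rw [hg, div_lt_one (by positivity)]; linarith
  have hgq : q * g = 1/2 := by rw [hg]; field_simp
  rcases hxy.eq_or_lt with rfl | hlt
  · simp
  have hx : 0 < x := by linarith
  have hD : 0 < x - y := by linarith
  have h1 : (y/x) ^ (1-g) ≤ 1 + (1-g) * (y/x - 1) := by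
    have := rpow_one_add_le_one_add_mul_self (s := y/x - 1) (p := 1-g)
      (by have : 0 ≤ y/x := by positivity
          linarith) (by linarith) (by linarith)
    simpa using this
  have hxb : 0 < x ^ (1-g) := Real.rpow_pos_of_pos hx _
  have hxg : 0 < x ^ g := Real.rpow_pos_of_pos hx _
  have hmul : x ^ (1-g) * x ^ g = x := by
    rw [← Real.rpow_add hx]; simp
  rw [Real.div_rpow hy hx.le, div_le_iff₀ hxb] at h1
  have h2 : (1-g) * (x - y) ≤ (x ^ (1-g) - y ^ (1-g)) * x ^ g := by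
    have e : (1 + (1-g) * (y/x - 1)) * x ^ (1-g) * x ^ g = x - (1-g) * (x-y) := by
      rw [mul_assoc, hmul]; field_simp; ring
    nlinarith [mul_le_mul_of_nonneg_right h1 hxg.le]
  have h3 : x ^ g ≤ K ^ g * √(x - y) := by
    calc x ^ g ≤ (K * (x-y)^q) ^ g := Real.rpow_le_rpow hx.le h hg0.le
      _ = K ^ g * √(x - y) := by
        rw [Real.mul_rpow hK.le (by positivity), ← Real.rpow_mul hD.le, hgq, Real.sqrt_eq_rpow]
  have hs : 0 < √(x - y) := Real.sqrt_pos.2 hD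
  have hss : √(x-y) * √(x-y) = x - y := Real.mul_self_sqrt hD.le
  have h4 : 0 ≤ x ^ (1-g) - y ^ (1-g) := by
    have := Real.rpow_le_rpow hy hxy (show 0 ≤ 1 - g by linarith); linarith
  have h5 : (1-g) * (√(x-y) * √(x-y)) ≤ (K ^ g * (x ^ (1-g) - y ^ (1-g))) * √(x-y) := by
    rw [hss]; nlinarith [mul_le_mul_of_nonneg_left h3 h4]
  have h6 : (1-g) * √(x-y) ≤ K ^ g * (x ^ (1-g) - y ^ (1-g)) := by
    rw [← mul_assoc] at h5; exact le_of_mul_le_mul_right h5 hs
  rw [div_mul_eq_mul_div, le_div_iff₀ (by linarith)]; linarith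

/-- discrete Łojasiewicz with memory `w`; constants independent of `n` and of the sequences. -/
theorem disc {C c q : ℝ} (hC : 0 ≤ C) (hc : 0 ≤ c) (hq : 1/2 < q) (hq1 : q ≤ 1) :
    ∃ K β : ℝ, 0 < K ∧ 0 < β ∧ ∀ (E w : ℕ → ℝ) (n : ℕ), (∀ k ≤ n, 0 ≤ E k) → (∀ k ≤ n, 0 ≤ w k) →
      (∀ k < n, E (k+1) ≤ E k) → (∀ k < n, w (k+1) ≤ w k / 4 + c * (E k - E (k+1))) →
      (∀ k < n, E (k+1) ≤ C * (E k - E (k+1) + w k) ^ q) → (c+1) * E 0 + w 0 ≤ 1 →
      ∑ k ∈ range n, √(E k - E (k+1)) ≤ K * ((c+1) * E 0 + w 0) ^ β := by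
  have hq0 : 0 < q := by linarith
  have hg1 : 1/(2*q) < 1 := by rw [div_lt_one (by positivity)]; linarith
  set K0 := ((c+1) * C + c + 1) * 2 + 1 with hK0
  have hK0p : 0 < K0 := by positivity
  refine ⟨K0 ^ (1/(2*q)) / (1 - 1/(2*q)), 1 - 1/(2*q), by
    have : 0 < 1 - 1/(2*q) := by linarith
    positivity, by linarith, ?_⟩
  intro E w n hE hw hm hwr hL h0
  set G : ℕ → ℝ := fun k => (c+1) * E k + w k with hG
  have hG0 : ∀ k ≤ n, 0 ≤ G k := fun k hk => by
    have := hE k hk; have := hw k hk; simp only [hG]; positivity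
  have hd : ∀ k < n, E k - E (k+1) + 3/4 * w k ≤ G k - G (k+1) := fun k hk => by
    have := hwr k hk; simp only [hG]; nlinarith
  have hG1 : ∀ k ≤ n, G k ≤ 1 := by
    intro k; induction k with
    | zero => intro _; exact h0
    | succ k ih =>
      intro hk
      have := ih (by omega); have := hd k (by omega); have := hm k (by omega)
      have := hw k (by omega); linarith
  have key : ∀ k < n, √(E k - E (k+1)) ≤ K0 ^ (1/(2*q)) / (1 - 1/(2*q)) *
      (G k ^ (1 - 1/(2*q)) - G (k+1) ^ (1 - 1/(2*q))) := fun k hk => by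
    have a1 := hd k hk; have a2 := hm k hk; have a3 := hw k hk.le
    have a4 := hG0 (k+1) hk; have a5 := hG1 k hk.le; have a6 := hwr k hk
    have a7 := hL k hk
    set Δ := G k - G (k+1) with hΔ
    have hΔ0 : 0 ≤ Δ := by linarith
    have hΔ1 : Δ ≤ 1 := by linarith
    have b1 : Δ ≤ Δ ^ q := by
      calc Δ = Δ ^ (1:ℝ) := by simp
        _ ≤ Δ ^ q := Real.rpow_le_rpow_of_exponent_ge' hΔ0 hΔ1 hq0.le hq1
    have b2 : (E k - E (k+1) + w k) ^ q ≤ 2 * Δ ^ q := by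
      calc (E k - E (k+1) + w k) ^ q ≤ (2 * Δ) ^ q :=
            Real.rpow_le_rpow (by linarith) (by linarith) hq0.le
        _ = 2 ^ q * Δ ^ q := Real.mul_rpow (by norm_num) hΔ0
        _ ≤ 2 * Δ ^ q := by
          have : (2:ℝ) ^ q ≤ 2 ^ (1:ℝ) := Real.rpow_le_rpow_of_exponent_le (by norm_num) hq1
          have h2 : 0 ≤ Δ ^ q := by positivity
          rw [Real.rpow_one] at this; nlinarith
    have b3 : G k ≤ K0 * (G k - G (k+1)) ^ q := by
      have h2 : 0 ≤ Δ ^ q := by positivity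
      have e1 : G (k+1) = (c+1) * E (k+1) + w (k+1) := rfl
      have e2 : E (k+1) ≤ C * (2 * Δ ^ q) := a7.trans (mul_le_mul_of_nonneg_left b2 hC)
      have e3 : w (k+1) ≤ (c+1) * Δ := by nlinarith
      have e4 : (c+1) * E (k+1) ≤ (c+1) * (C * (2 * Δ ^ q)) :=
        mul_le_mul_of_nonneg_left e2 (by linarith)
      have e5 : (c+1) * Δ ≤ (c+1) * Δ ^ q := mul_le_mul_of_nonneg_left b1 (by linarith)
      rw [← hΔ, hK0]; nlinarith
    refine le_trans (Real.sqrt_le_sqrt (by linarith)) (disc_step hq hK0p a4 (by linarith) b3)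
  calc ∑ k ∈ range n, √(E k - E (k+1))
      ≤ ∑ k ∈ range n, K0 ^ (1/(2*q)) / (1 - 1/(2*q)) *
        (G k ^ (1 - 1/(2*q)) - G (k+1) ^ (1 - 1/(2*q))) :=
        sum_le_sum fun k hk => key k (mem_range.1 hk)
    _ = K0 ^ (1/(2*q)) / (1 - 1/(2*q)) * (G 0 ^ (1 - 1/(2*q)) - G n ^ (1 - 1/(2*q))) := by
        rw [← mul_sum, Finset.sum_range_sub' (fun k => G k ^ (1 - 1/(2*q)))]
    _ ≤ _ := by
        have : 0 < 1 - 1/(2*q) := by linarith
        have h1 : 0 ≤ G n ^ (1 - 1/(2*q)) := Real.rpow_nonneg (hG0 n le_rfl) _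
        exact mul_le_mul_of_nonneg_left (by simp only [hG] at h1 ⊢; linarith) (by positivity)







end Crest.Agent.N250.R
end
end

-- ▼ part N250/Wk/Abs
section

/-!
# Row 250 (helper92): the abstract finite length argument behind `WeakStmt`
-/

set_option autoImplicit false
open Set Filter Topology

noncomputable section

namespace Crest.Agent.N250.Wk

/-- one step of the discrete Łojasiewicz inequality with memory -/
def Step (G : ℝ → ℝ) (Good : ℝ → ℝ → Prop) (θ C Q ε lam : ℝ) : Prop :=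
  ∀ w, 0 ≤ w → w ≤ ε → Good lam w →
    G (Q * lam) ≤ C * (G lam - G (Q * lam) + w) ^ θ ∧
      Good (Q * lam) (w / 4 + C * (G lam - G (Q * lam)))

/-- a property which holds along all ultrafilters converging to `z` holds near `z` -/
theorem unif_of_ultra {ι : Type} {J : ι → ℝ → ℝ} {z : ι → ℝ} {P : ℝ → Prop}
    (h : ∀ l : Ultrafilter ℝ, (l : Filter ℝ) ≤ atTop → (∀ i, Tendsto (J i) l (𝓝 (z i))) →
      ∀ᶠ lam in (l : Filter ℝ), P lam) :
    ∃ (I : Set ι) (δ L : ℝ), I.Finite ∧ 0 < δ ∧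
      ∀ lam, L ≤ lam → (∀ i ∈ I, |J i lam - z i| < δ) → P lam := by
  have h1 : ∀ᶠ lam in atTop ⊓ comap (fun lam i => J i lam) (𝓝 z), P lam := by
    refine Filter.mem_iff_ultrafilter.2 fun l hl => ?_
    exact h l (hl.trans inf_le_left) fun i =>
      tendsto_pi_nhds.1 (tendsto_iff_comap.2 (hl.trans inf_le_right)) i
  obtain ⟨A, hA, B, hB, hAB⟩ := mem_inf_iff_superset.1 h1
  obtain ⟨L, hL⟩ := mem_atTop_sets.1 hA
  obtain ⟨U, hU, hUB⟩ := mem_comap.1 hB
  rw [nhds_pi] at hU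
  obtain ⟨I, hI, t, ht, hIt⟩ := mem_pi.1 hU
  have h2 : ∀ᶠ δ in 𝓝[>] (0 : ℝ), ∀ i ∈ I, Metric.ball (z i) δ ⊆ t i := by
    rw [eventually_all_finite hI]
    intro i _
    obtain ⟨e, he, hb⟩ := Metric.mem_nhds_iff.1 (ht i)
    filter_upwards [Ioo_mem_nhdsGT he] with δ hδ
    exact (Metric.ball_subset_ball hδ.2.le).trans hb
  obtain ⟨δ, hδ, hδ0⟩ := (h2.and self_mem_nhdsWithin).exists
  exact ⟨I, δ, L, hI, hδ0, fun lam h1 h2 =>
    hAB ⟨hL lam h1, hUB (hIt fun i hi => hδ i hi (by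
      rw [Metric.mem_ball, Real.dist_eq]; exact h2 i hi))⟩⟩

/-- **abstract finite length** -/
theorem abs_weak {ι : Type} {G : ℝ → ℝ} {J : ι → ℝ → ℝ} {z : ι → ℝ} {Good : ℝ → ℝ → Prop}
    {b θ C Q ε : ℝ} {l₀ : Filter ℝ} [l₀.NeBot] (hl₀ : l₀ ≤ atTop) (hb : 0 < b) (hθ : 1 / 2 < θ)
    (hC : 0 < C) (hQ : 1 < Q) (hε : 0 < ε) (anti : ∀ x y, b ≤ x → x ≤ y → G y ≤ G x)
    (lim : Tendsto G atTop (𝓝 0))
    (speed : ∀ i, ∃ κ, 0 ≤ κ ∧ ∀ x y, b ≤ x → x ≤ y → y ≤ Q * x →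
      |J i x - J i y| ≤ κ * ((G x - G y) + √(G x - G y)))
    (start : ∀ i, Tendsto (J i) l₀ (𝓝 (z i))) (good : ∀ η, 0 < η → ∀ᶠ lam in l₀, Good lam η)
    (step : ∀ l : Ultrafilter ℝ, (l : Filter ℝ) ≤ atTop → (∀ i, Tendsto (J i) l (𝓝 (z i))) →
      ∀ᶠ lam in (l : Filter ℝ), Step G Good θ C Q ε lam) (i₀ : ι) :
    Tendsto (J i₀) atTop (𝓝 (z i₀)) := by
  obtain ⟨I, δ, L, hI, hδ, hS⟩ := unif_of_ultra step
  choose κ hκ0 hκ using speed
  obtain ⟨κ₁, hκ₁⟩ := (hI.image κ).bddAbove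
  have hG0 : ∀ x, b ≤ x → 0 ≤ G x := fun x hx =>
    le_of_tendsto lim ((eventually_ge_atTop x).mono fun y hy => anti x y hx hy)
  obtain ⟨K, β, hK, hβ, hd⟩ := R.disc (C := C) (c := C) (q := min θ 1) hC.le hC.le
    (lt_min hθ (by norm_num)) (min_le_right _ _)
  have hη : ∀ᶠ η in 𝓝[>] (0 : ℝ), (C + 2) * η < 1 ∧ (C + 2) * η < ε ∧
      |κ₁| * (η + K * ((C + 1) * η + η) ^ β) < δ / 2 := by
    have c1 : Tendsto (fun η : ℝ => (C + 2) * η) (𝓝 0) (𝓝 0) :=
      Continuous.tendsto' (by fun_prop) _ _ (by simp)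
    have c2 : Tendsto (fun η : ℝ => |κ₁| * (η + K * ((C + 1) * η + η) ^ β)) (𝓝 0) (𝓝 0) :=
      Continuous.tendsto' (continuous_const.mul (continuous_id.add (continuous_const.mul
        (Continuous.rpow_const (by fun_prop) fun _ => Or.inr hβ.le)))) _ _ (by simp [hβ.ne'])
    exact ((c1.eventually (gt_mem_nhds one_pos)).and ((c1.eventually (gt_mem_nhds hε)).and
      (c2.eventually (gt_mem_nhds (half_pos hδ))))).filter_mono nhdsWithin_le_nhds
  obtain ⟨η, ⟨hη1, hη2, hη3⟩, hη0⟩ := (hη.and self_mem_nhdsWithin).exists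
  have hη0 : 0 < η := hη0
  have hst : ∀ᶠ lam in l₀, ∀ i ∈ I, |J i lam - z i| < δ / 2 := by
    rw [eventually_all_finite hI]
    intro i _
    exact (Metric.tendsto_nhds.1 (start i) _ (half_pos hδ)).mono fun _ h => by
      rwa [Real.dist_eq] at h
  obtain ⟨x₀, hx1, hx2, hx3, hx4, hx5⟩ := (hst.and ((good η hη0).and
    (((eventually_ge_atTop b).and ((eventually_ge_atTop L).and
    (lim.eventually (gt_mem_nhds hη0)))).filter_mono hl₀))).exists
  have hx0 : 0 < x₀ := hb.trans_le hx3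
  set x : ℕ → ℝ := fun k => Q ^ k * x₀ with hx
  have hxs : ∀ k, x (k + 1) = Q * x k := fun k => by simp only [hx]; ring
  have hx00 : x 0 = x₀ := by simp [hx]
  have hxge : ∀ k, x₀ ≤ x k := fun k =>
    le_mul_of_one_le_left hx0.le (one_le_pow₀ hQ.le)
  have hxb : ∀ k, b ≤ x k := fun k => hx3.trans (hxge k)
  have hxle : ∀ k, x k ≤ x (k + 1) := fun k => by
    rw [hxs]
    exact le_mul_of_one_le_left (hb.le.trans (hxb k)) hQ.le
  set En : ℕ → ℝ := fun k => G (x k) with hEn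
  have hE0 : ∀ k, 0 ≤ En k := fun k => hG0 _ (hxb k)
  have hEa : ∀ k, En (k + 1) ≤ En k := fun k => anti _ _ (hxb k) (hxle k)
  have hEη : En 0 ≤ η := by
    simp only [hEn, hx00]
    exact hx5.le
  let w : ℕ → ℝ := fun k => Nat.rec η (fun k v => v / 4 + C * (En k - En (k + 1))) k
  have hw0 : w 0 = η := rfl
  have hws : ∀ k, w (k + 1) = w k / 4 + C * (En k - En (k + 1)) := fun _ => rfl
  have hwb : ∀ k, 0 ≤ w k ∧ w k ≤ η + C * (En 0 - En k) := by
    intro k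
    induction k with
    | zero => simp [hw0, hη0.le]
    | succ k ih =>
      have := mul_nonneg hC.le (sub_nonneg.2 (hEa k))
      rw [hws]
      constructor <;> nlinarith [ih.1, ih.2]
  have hEle : ∀ k, En k ≤ η := fun k => (anti _ _ hx3 (hxge k)).trans hx5.le
  have hwle : ∀ k, w k ≤ (C + 1) * η := fun k => by
    have := mul_le_mul_of_nonneg_left (show En 0 - En k ≤ η by linarith [hE0 k]) hC.le
    linarith [(hwb k).2]
  have hsum : ∀ n, (∀ k < n, En (k + 1) ≤ C * (En k - En (k + 1) + w k) ^ min θ 1) →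
      ∑ k ∈ Finset.range n, √(En k - En (k + 1)) ≤ K * ((C + 1) * η + η) ^ β := by
    intro n hn
    refine (hd En w n (fun k _ => hE0 k) (fun k _ => (hwb k).1) (fun k _ => hEa k)
      (fun k _ => (hws k).le) hn (by rw [hw0]; nlinarith)).trans ?_
    rw [hw0]
    have := hE0 0
    gcongr
  have hmove : ∀ i n, |J i (x 0) - J i (x n)| ≤
      κ i * ((En 0 - En n) + ∑ k ∈ Finset.range n, √(En k - En (k + 1))) := by
    intro i n
    induction n with
    | zero => simp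
    | succ n ih =>
      have h1 := hκ i _ _ (hxb n) (hxle n) (hxs n).le
      have h2 := abs_sub_le (J i (x 0)) (J i (x n)) (J i (x (n + 1)))
      rw [Finset.sum_range_succ]
      simp only [hEn] at ih ⊢
      nlinarith
  have hind : ∀ n, Good (x n) (w n) ∧
      ∀ k < n, En (k + 1) ≤ C * (En k - En (k + 1) + w k) ^ min θ 1 := by
    intro n
    induction n with
    | zero => exact ⟨by rw [hx00]; exact hx2, fun k hk => absurd hk (Nat.not_lt_zero k)⟩
    | succ n ih =>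
      have h1 : Step G Good θ C Q ε (x n) := by
        refine hS _ (hx4.trans (hxge n)) fun i hi => ?_
        have a1 := hmove i n
        have a2 : κ i ≤ |κ₁| := (hκ₁ (mem_image_of_mem κ hi)).trans (le_abs_self _)
        have a3 : κ i * ((En 0 - En n) + ∑ k ∈ Finset.range n, √(En k - En (k + 1))) ≤
            |κ₁| * (η + K * ((C + 1) * η + η) ^ β) := by
          refine mul_le_mul a2 (add_le_add (by linarith [hE0 n]) (hsum n ih.2)) ?_ (abs_nonneg _)
          have : En n ≤ En 0 := anti _ _ (hxb 0) (by rw [hx00]; exact hxge n)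
          exact add_nonneg (by linarith) (Finset.sum_nonneg fun _ _ => Real.sqrt_nonneg _)
        have a4 := hx1 i hi
        have a5 := abs_sub_le (J i (x n)) (J i (x 0)) (z i)
        rw [abs_sub_comm (J i (x n)) (J i (x 0))] at a5
        rw [← hx00] at a4
        linarith
      have h2 := h1 (w n) (hwb n).1 (by linarith [hwle n]) ih.1
      rw [← hxs] at h2
      refine ⟨h2.2, fun k hk => ?_⟩
      rcases Nat.lt_succ_iff_lt_or_eq.1 hk with h | rfl
      · exact ih.2 k h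
      refine h2.1.trans (mul_le_mul_of_nonneg_left ?_ hC.le)
      have b0 : 0 ≤ En k - En (k + 1) + w k := by linarith [hEa k, (hwb k).1]
      have b1 : En k - En (k + 1) + w k ≤ 1 := by linarith [hEle k, hE0 (k + 1), hwle k]
      exact Real.rpow_le_rpow_of_exponent_ge' b0 b1 (le_min (by linarith) zero_le_one)
        (min_le_left _ _)
  have hs1 : Summable fun k => √(En k - En (k + 1)) :=
    summable_of_sum_range_le (fun _ => Real.sqrt_nonneg _) fun n => hsum n (hind n).2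
  have hs2 : Summable fun k => En k - En (k + 1) :=
    summable_of_sum_range_le (c := En 0) (fun k => sub_nonneg.2 (hEa k)) fun n => by
      rw [Finset.sum_range_sub']
      linarith [hE0 n]
  have hcau : CauchySeq fun k => J i₀ (x k) :=
    cauchySeq_of_dist_le_of_summable _ (fun k => by
      rw [Real.dist_eq]
      exact hκ i₀ _ _ (hxb k) (hxle k) (hxs k).le) ((hs2.add hs1).mul_left (κ i₀))
  obtain ⟨y, hy⟩ := cauchySeq_tendsto_of_complete hcau
  have hlim : Tendsto (J i₀) atTop (𝓝 y) := by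
    have t0 : Tendsto (fun k => κ i₀ * ((En k - En (k + 1)) + √(En k - En (k + 1)))) atTop (𝓝 0) :=
      ((hs2.add hs1).mul_left (κ i₀)).tendsto_atTop_zero
    rw [Metric.tendsto_atTop]
    intro e he
    obtain ⟨N, hN⟩ := eventually_atTop.1 ((Metric.tendsto_nhds.1 hy _ (half_pos he)).and
      (t0.eventually (gt_mem_nhds (half_pos he))))
    refine ⟨x N, fun lam hlam => ?_⟩
    have hxN : 0 < x N := hb.trans_le (hxb N)
    obtain ⟨n, hn1, hn2⟩ := exists_nat_pow_near ((one_le_div hxN).2 hlam) hQ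
    have e1 : ∀ j, x (N + j) = Q ^ j * x N := fun j => by simp only [hx]; ring
    have a1 : x (N + n) ≤ lam := by
      rw [e1]
      exact (le_div_iff₀ hxN).1 hn1
    have a2 : lam ≤ x (N + n + 1) := by
      rw [add_assoc, e1]
      exact ((div_lt_iff₀ hxN).1 hn2).le
    have a3 := hκ i₀ _ _ (hxb _) a1 (a2.trans (hxs _).le)
    have a4 : G (x (N + n + 1)) ≤ G lam := anti _ _ ((hxb _).trans a1) a2
    have a5 : κ i₀ * ((G (x (N + n)) - G lam) + √(G (x (N + n)) - G lam)) ≤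
        κ i₀ * ((En (N + n) - En (N + n + 1)) + √(En (N + n) - En (N + n + 1))) :=
      mul_le_mul_of_nonneg_left (add_le_add (by simp only [hEn]; linarith)
        (Real.sqrt_le_sqrt (by simp only [hEn]; linarith))) (hκ0 i₀)
    obtain ⟨b1, b2⟩ := hN (N + n) (Nat.le_add_right _ _)
    have := dist_triangle_left (J i₀ lam) y (J i₀ (x (N + n)))
    rw [Real.dist_eq (J i₀ (x (N + n))) (J i₀ lam)] at this
    linarith
  rwa [tendsto_nhds_unique (start i₀) (hlim.mono_left hl₀)]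

end Crest.Agent.N250.Wk

end
end

-- ▼ part N250/Wk/Weak
section

/-!
# Row 250 (helper92): `WeakStmt`
-/

set_option autoImplicit false
open MeasureTheory Set Filter Topology
open scoped ContDiff InnerProductSpace
open Crest.GeometryTopology.MCF

noncomputable section

namespace Crest.Agent.N250.Wk

variable {F S S' : Mv} {Λ a : ℝ} {m : Md} {f : E → ℝ}

theorem exists_tf (hf : ContDiff ℝ ∞ f) (hc : HasCompactSupport f) :
    ∃ ρ B, 0 ≤ ρ ∧ Tf f ρ B := by
  obtain ⟨ρ, hρ, hs⟩ := hc.isCompact.isBounded.subset_ball_lt 0 (0 : E)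
  obtain ⟨B₁, h1⟩ := hf.continuous.bounded_above_of_compact_support hc
  obtain ⟨B₂, h2⟩ := (hf.continuous_fderiv (by simp)).bounded_above_of_compact_support
    (hc.fderiv ℝ)
  refine ⟨ρ, max B₁ B₂, hρ.le, hf, fun y hy => ?_, fun y => (h1 y).trans (le_max_left _ _),
    fun y => (h2 y).trans (le_max_right _ _)⟩
  refine image_eq_zero_of_notMem_tsupport fun h => ?_
  have := mem_ball_zero_iff.1 (hs h)
  linarith

theorem mu_scale (G : Mv) (f : E → ℝ) {σ : ℝ} (hσ : 0 < σ) :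
    ∫ y, f y ∂G.mu (-σ ^ 2) = σ ^ 2 * ∫ y, f (σ • y) ∂(G.para 0 σ⁻¹).mu (-1) := by
  have h := Tr.para_int (F := G) 0 (inv_pos.2 hσ) (-1) f
  simp only [Prod.fst_zero, Prod.snd_zero, zero_add, inv_inv] at h
  rw [h, show -1 / σ⁻¹ ^ 2 = -σ ^ 2 by field_simp]
  field_simp

theorem Jr_eq (G : Mv) (f : E → ℝ) {r : ℝ} (hr : 0 < r) :
    Jr G f r = ∫ y, f y ∂(G.para 0 r⁻¹).mu (-1) := by
  rw [Jr, mu_scale G _ hr, ← integral_const_mul]
  refine integral_congr_ae (Eventually.of_forall fun y => ?_)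
  simp only [ss, neg_neg, Real.sqrt_sq hr.le, smul_smul, inv_mul_cancel₀ hr.ne', one_smul]
  field_simp

theorem para_para0 (G : Mv) {lam μ : ℝ} (hl : 0 < lam) (hμ : 0 < μ) :
    (G.para 0 lam).para 0 μ = G.para 0 (lam * μ) := by
  rw [Tr.para_para 0 hl G 0 hμ, Tr.paraS_map]
  simp [Prod.mk_zero_zero]

theorem unr_mu (hS : S.Static) {σ : ℝ} (hσ : 0 < σ) :
    (S.unresc.para 0 σ⁻¹).mu (-1) = S.mu 0 := by
  have : (S.unresc.para 0 σ⁻¹).sl (-1) = S.sl 0 := by
    ext x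
    have h := E.unr_mem' hS (σ • x) hσ
    rw [smul_smul, inv_mul_cancel₀ hσ.ne', one_smul] at h
    rw [← h]
    simp only [Mv.sl, Mv.para, mem_ofPred_eq, Prod.fst_zero, Prod.snd_zero, zero_add, inv_inv]
    rw [show -1 / σ⁻¹ ^ 2 = -σ ^ 2 by field_simp]
  rw [Mv.mu, this, Mv.mu]

theorem sh_fin (hS : Sh S Λ m) : IsFiniteMeasureOnCompacts (S.mu 0) := by
  have := fin_mu hS.cl.fl.ar (-1)
  rwa [Mv.mu, E.unr_sl_one hS.shr.st] at this

theorem sub_of_int (hS : Sh S Λ m) (hS' : Sh S' Λ m)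
    (h : ∀ f : E → ℝ, ContDiff ℝ ∞ f → HasCompactSupport f →
      ∫ y, f y ∂S.mu 0 = ∫ y, f y ∂S'.mu 0) : S.M ⊆ S'.M := by
  rintro ⟨x, t⟩ hx
  rw [hS.shr.st.mem] at hx
  rw [hS'.shr.st.mem]
  by_contra hx'
  have hcl : IsClosed (S'.sl 0) := hS'.shr.closed.preimage (Continuous.prodMk_left (0 : ℝ))
  obtain ⟨r, hr, hb⟩ := Metric.isOpen_iff.1 hcl.isOpen_compl x hx'
  let φ : ContDiffBump x := ⟨r / 2, r, half_pos hr, half_lt_self hr⟩
  have := sh_fin hS
  have h1 : ∫ y, φ y ∂S'.mu 0 = 0 := by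
    refine integral_eq_zero_of_ae ?_
    filter_upwards [ae_restrict_mem hcl.measurableSet] with y hy
    refine φ.zero_of_le_dist (le_of_not_gt fun hd => hb (Metric.mem_ball.2 hd) hy)
  have h2 : 0 < ∫ y, φ y ∂S.mu 0 := by
    rw [integral_pos_iff_support_of_nonneg φ.nonneg'
      (φ.continuous.integrable_of_hasCompactSupport φ.hasCompactSupport), φ.support_eq]
    exact hS.shr.reg.mu_pos hx (Metric.ball_mem_nhds x φ.rOut_pos)
  rw [h φ φ.contDiff φ.hasCompactSupport, h1] at h2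
  exact lt_irrefl _ h2

/-- weak convergence at time `-1` against smooth functions gives `WConv` -/
theorem wconv_of (hF : F.AR Λ) (hS : Sh S Λ m)
    (h : ∀ f : E → ℝ, ContDiff ℝ ∞ f → HasCompactSupport f →
      Tendsto (fun lam => ∫ y, f y ∂(F.para 0 lam).mu (-1)) atTop (𝓝 (∫ y, f y ∂S.mu 0))) :
    WConv F S := by
  intro f hf hc a b hab hb ε hε
  have := sh_fin hS
  obtain ⟨ρ, hρ, hs⟩ := hc.isCompact.isBounded.subset_ball_lt 0 (0 : E)
  have hb0 : 0 < √(-b) := Real.sqrt_pos.2 (by linarith)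
  have ha0 : 0 < √(-a) := Real.sqrt_pos.2 (by linarith)
  have key := Br.unif_of_weak (l := atTop) (fun lam => (F.para 0 lam).mu (-1)) (S.mu 0)
    ((eventually_gt_atTop 0).mono fun lam hl => fin_mu (Tr.para_ar 0 hl hF) _) h
    (fun q => q.1 ^ 2 * f (q.1 • q.2)) (by fun_prop) (K := Icc √(-b) √(-a)) isCompact_Icc
    (R := ρ / √(-b)) (by positivity) (fun s hs' y hy => by
      have h0 : f (s • y) = 0 := by
        refine image_eq_zero_of_notMem_tsupport fun h => ?_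
        have h1 := mem_ball_zero_iff.1 (hs h)
        rw [norm_smul, Real.norm_eq_abs, abs_of_pos (hb0.trans_le hs'.1)] at h1
        rw [div_le_iff₀ hb0] at hy
        nlinarith [hs'.1, norm_nonneg y]
      simp [h0]) hε
  obtain ⟨L, hL⟩ := eventually_atTop.1 key
  refine ⟨max L 1 * √(-a), fun lam hlam s hs' => ?_⟩
  have hs0 : 0 < -s := by linarith [hs'.2]
  set σ := √(-s) with hσ
  have hσ0 : 0 < σ := Real.sqrt_pos.2 hs0
  have hσs : s = -σ ^ 2 := by rw [hσ, Real.sq_sqrt hs0.le, neg_neg]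
  have hσ1 : √(-b) ≤ σ := Real.sqrt_le_sqrt (by linarith [hs'.2])
  have hσ2 : σ ≤ √(-a) := Real.sqrt_le_sqrt (by linarith [hs'.1])
  have hm : 0 < max L 1 := lt_max_of_lt_right one_pos
  have hl0 : 0 < lam := lt_of_lt_of_le (by positivity) hlam
  have hge : L ≤ lam * σ⁻¹ := by
    rw [← div_eq_mul_inv, le_div_iff₀ hσ0]
    calc L * σ ≤ max L 1 * √(-a) := mul_le_mul (le_max_left _ _) hσ2 hσ0.le hm.le
      _ ≤ lam := hlam
  have := hL _ hge σ ⟨hσ1, hσ2⟩
  rw [hσs, mu_scale _ f hσ0, mu_scale _ f hσ0, para_para0 F hl0 (inv_pos.2 hσ0),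
    unr_mu hS.shr.st hσ0]
  simpa only [integral_const_mul] using this

theorem ev_mem (ha : a < 0) {c : ℝ} (hc : 0 < c) :
    ∀ᶠ lam in atTop, -c / lam ^ 2 ∈ Ioo a 0 := by
  have t1 : Tendsto (fun lam : ℝ => -c / lam ^ 2) atTop (𝓝 0) :=
    tendsto_const_nhds.div_atTop (tendsto_pow_atTop two_ne_zero)
  filter_upwards [t1.eventually (lt_mem_nhds ha), eventually_gt_atTop 0] with lam h1 h2
  exact ⟨h1, div_neg_of_neg_of_pos (by linarith) (by positivity)⟩

theorem fg_para (F : Mv) {lam : ℝ} (hl : 0 < lam) (r : ℝ) :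
    (F.para 0 lam).Fg 0 r = F.Fg 0 (r / lam) := by
  rw [Tr.para_Fg 0 hl]
  simp [Prod.mk_zero_zero]

/-- the Gaussian density exists -/
theorem exists_dens (hH : HuiskenS) (ha : a < 0) (hF : Cl F (Ioo a 0) Λ m) :
    ∃ Θ : ℝ, ∀ K, 0 < K → Tendsto (fun lam => F.Fg 0 (K / lam)) atTop (𝓝 Θ) := by
  have hr0 : 0 < √(-a) := Real.sqrt_pos.2 (by linarith)
  have hmono : MonotoneOn (F.Fg 0) (Ioo 0 √(-a)) := fun r hr s hs hrs =>
    Lim.fg_mono hH hF.tm hF.fl 0 hr.1 hrs ⟨by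
      have := (Real.lt_sqrt hs.1.le).1 hs.2
      linarith, by
      have := pow_pos hs.1 2
      linarith⟩
  have hbdd : BddBelow (F.Fg 0 '' Ioo 0 √(-a)) := by
    refine ⟨0, ?_⟩
    rintro _ ⟨r, hr, rfl⟩
    exact E.gA_nonneg _ _ (pow_pos hr.1 2)
  have h1 := hmono.tendsto_nhdsWithin_Ioo_right (nonempty_Ioo.2 hr0) hbdd
  refine ⟨_, fun K hK => h1.comp ?_⟩
  refine tendsto_nhdsWithin_iff.2 ⟨tendsto_const_nhds.div_atTop tendsto_id, ?_⟩
  filter_upwards [eventually_gt_atTop 0] with lam hl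
  exact div_pos hK hl

theorem ev_cl (hF : Cl F (Ioo a 0) Λ m) :
    ∀ᶠ lam in atTop, Cl (F.para 0 lam) {t | t / lam ^ 2 ∈ Ioo a 0} Λ m :=
  (eventually_gt_atTop 0).mono fun lam hl => Tr.paraStmt F _ Λ m 0 lam hl hF

/-- tangent flows along ultrafilters -/
theorem exists_lim (hL : LimStmt) (hH : HuiskenS) (ha : a < 0) (hF : Cl F (Ioo a 0) Λ m)
    (l : Ultrafilter ℝ) (hl : (l : Filter ℝ) ≤ atTop) :
    ∃ S : Mv, Sh S Λ m ∧ Conv l (fun lam => F.para 0 lam) S.unresc NT := by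
  obtain ⟨Θ, hΘ⟩ := exists_dens hH ha hF
  refine hL ℝ l _ (fun lam => {t | t / lam ^ 2 ∈ Ioo a 0}) Λ m ((ev_cl hF).filter_mono hl)
    (fun t ht => ?_) fun K hK => ?_
  · have := (ev_mem ha (c := -t) (by linarith)).filter_mono hl
    simpa only [neg_neg, mem_ofPred_eq] using this
  · have hK0 : 0 < K := by linarith
    have t1 := (hΘ K hK0).sub (hΘ K⁻¹ (inv_pos.2 hK0))
    rw [sub_self] at t1
    refine (t1.congr' ?_).mono_left hl
    filter_upwards [eventually_gt_atTop 0] with lam h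
    rw [fg_para F h, fg_para F h]

theorem fg_lim (hFl : ConvFlS) (hF : Cl F (Ioo a 0) Λ m) (hS : Sh S Λ m)
    {l : Filter ℝ} [l.NeBot] (hl : l ≤ atTop)
    (hc : Conv l (fun lam => F.para 0 lam) S.unresc NT) :
    Tendsto (fun lam => F.Fg 0 (2 / lam)) l (𝓝 (S.Fs 0 0 1)) := by
  have t1 := Lim.fg_tendsto hFl (((ev_cl hF).filter_mono hl).mono fun _ h => h.fl) hc
    (fun p hp => ⟨trivial, hp.1⟩) 0 two_pos
  rw [E.unr_Fg hS.shr.st 0 two_pos, smul_zero, ← E.Fs_eq] at t1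
  refine t1.congr' ?_
  filter_upwards [(eventually_gt_atTop 0).filter_mono hl] with lam h
  exact fg_para F h 2

theorem jr_lim (hμ : ConvMuS) (hS : S.Static) {l : Filter ℝ} (hl : l ≤ atTop)
    (hc : Conv l (fun lam => F.para 0 lam) S.unresc NT) {ρ B : ℝ} (hf : Tf f ρ B) :
    Tendsto (fun lam => Jr F f (2 / lam)) l (𝓝 (∫ y, f y ∂S.mu 0)) := by
  have hg : Continuous fun q : CFl.PNA => ss f (q.1, -2 ^ 2) := by
    have := hf.sm.continuous
    simp only [ss]
    fun_prop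
  have t1 := CFl.conv_sp hμ isOpen_Iio hc hg (y := 0) (b := (ρ + 1) * √(- -2 ^ 2))
    (fun q hq => (hf.ss_zero (p := (q.1, -2 ^ 2)) (by norm_num)
      (by rwa [dist_zero_right] at hq)).1) (tk := fun _ => -2 ^ 2) (t := -2 ^ 2)
    (by simp) tendsto_const_nhds
  have e : ∫ x, ss f ((CFl.jt S.unresc (-2 ^ 2) x).1, -2 ^ 2) ∂S.unresc.mu (-2 ^ 2) =
      ∫ y, f y ∂S.mu 0 := by
    rw [← unr_mu hS two_pos, ← Jr_eq _ _ two_pos]
    rfl
  rw [e] at t1
  refine t1.congr' ?_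
  filter_upwards [(eventually_gt_atTop 0).filter_mono hl] with lam h
  change Jr (F.para 0 lam) f 2 = _
  rw [Jr_eq _ _ two_pos, Jr_eq _ _ (div_pos two_pos h), para_para0 F h (inv_pos.2 two_pos),
    inv_div, div_eq_mul_inv]

theorem weakStmt_of (hL : LimStmt) (hT : TransS) (hD : DivS) (hH : HuiskenS) (hFl : ConvFlS)
    (hμ : ConvMuS) : WeakStmt := by
  intro F a Λ m ha hF hLS
  have hl₀ : ((Ultrafilter.of (atTop : Filter ℝ) : Ultrafilter ℝ) : Filter ℝ) ≤ atTop :=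
    Ultrafilter.of_le _
  obtain ⟨S, hS, hc⟩ := exists_lim hL hH ha hF _ hl₀
  obtain ⟨θ, C, Q, ε, Good, hθ, hC, hQ, hε, hls⟩ := hLS S hS
  refine ⟨S, hS.shr, wconv_of hF.fl.ar hS fun f hf hcs => ?_, _, hl₀, hc⟩
  obtain ⟨Θ, hΘ⟩ := exists_dens hH ha hF
  have hΘS : Θ = S.Fs 0 0 1 :=
    tendsto_nhds_unique ((hΘ 2 two_pos).mono_left hl₀) (fg_lim hFl hF hS hl₀ hc)
  obtain ⟨b₀, hb₀⟩ := eventually_atTop.1 (ev_mem ha (c := 2 ^ 2) (by norm_num))
  have hb : 0 < max b₀ 1 := lt_max_of_lt_right one_pos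
  have hmem : ∀ x, max b₀ 1 ≤ x → -(2 / x) ^ 2 ∈ Ioo a 0 := fun x hx => by
    rw [div_pow, ← neg_div]
    exact hb₀ x ((le_max_left _ _).trans hx)
  have key := abs_weak (ι := {f : E → ℝ // ContDiff ℝ ∞ f ∧ HasCompactSupport f})
    (G := fun lam => F.Fg 0 (2 / lam) - S.Fs 0 0 1) (J := fun f lam => Jr F f.1 (2 / lam))
    (z := fun f => ∫ y, f.1 y ∂S.mu 0) (Good := Good) hl₀ hb hθ hC hQ hε
    (fun x y hx hxy => sub_le_sub_right (Lim.fg_mono hH hF.tm hF.fl 0
      (div_pos two_pos (hb.trans_le (hx.trans hxy)))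
      (div_le_div_of_nonneg_left zero_le_two (hb.trans_le hx) hxy) (hmem x hx)) _)
    (by simpa only [hΘS, sub_self] using (hΘ 2 two_pos).sub_const (S.Fs 0 0 1))
    (fun i => by
      obtain ⟨ρ, B, hρ, hi⟩ := exists_tf i.2.1 i.2.2
      refine ⟨cS ρ Λ Q * B, mul_nonneg (cS_pos _ _ _).le hi.nonneg, fun x y hx hxy hyx => ?_⟩
      have hx0 := hb.trans_le hx
      have hy0 := hx0.trans_le hxy
      rw [abs_sub_comm, sub_sub_sub_cancel_right]
      refine speed hT hD hH hF.tm hF.fl hi hρ (div_pos two_pos hy0)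
        (div_le_div_of_nonneg_left zero_le_two hx0 hxy) ?_ (hmem x hx)
      rw [← mul_div_assoc, div_le_div_iff₀ hx0 hy0]
      linarith)
    (fun i => by
      obtain ⟨ρ, B, -, hi⟩ := exists_tf i.2.1 i.2.2
      exact jr_lim hμ hS.shr.st hl₀ hc hi)
    (hls _ S hl₀ hS rfl hc).1
    (fun l hl ht => by
      obtain ⟨S', hS', hc'⟩ := exists_lim hL hH ha hF l hl
      have he : ∀ f : E → ℝ, ContDiff ℝ ∞ f → HasCompactSupport f →
          ∫ y, f y ∂S.mu 0 = ∫ y, f y ∂S'.mu 0 := fun f h1 h2 => by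
        obtain ⟨ρ, B, -, hi⟩ := exists_tf h1 h2
        exact tendsto_nhds_unique (ht ⟨f, h1, h2⟩) (jr_lim hμ hS'.shr.st hl hc' hi)
      have hM : S'.M = S.M :=
        (sub_of_int hS' hS fun f h1 h2 => (he f h1 h2).symm).antisymm (sub_of_int hS hS' he)
      filter_upwards [(hls l S' hl hS' hM hc').2] with lam h w h1 h2 h3
      simpa only [sub_sub_sub_cancel_right] using h w h1 h2 h3)
    ⟨f, hf, hcs⟩
  have t2 : Tendsto (fun lam : ℝ => 2 * lam) atTop atTop := tendsto_id.const_mul_atTop two_pos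
  refine (key.comp t2).congr' ?_
  filter_upwards [eventually_gt_atTop 0] with lam h
  simp only [Function.comp]
  rw [Jr_eq _ _ (by positivity), show (2 / (2 * lam))⁻¹ = lam by field_simp]

end Crest.Agent.N250.Wk

end
end

-- ▼ part N250/E/Pol2
section

/-! Row 250, block E (helper94): E5 in the forms consumed by the assembly. -/

set_option autoImplicit false

open Set Metric Filter
open scoped ContDiff Topology RealInnerProductSpace

noncomputable section

namespace Crest.Agent.N250.EP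

open Crest.GeometryTopology.MCF (E)

variable {y : E} {S : Set E}

/-- compact sets missing the cylinder miss the far translates of `S` -/
theorem cyl_far (hy : ‖y‖ = 1) (h : CylLim y S) {K : Set E} (hK : IsCompact K)
    (hd : Disjoint K (cyl y)) : ∃ Λ : ℝ, ∀ lam ≥ Λ, ∀ x ∈ K, x + lam • y ∉ S := by
  rcases K.eq_empty_or_nonempty with rfl | hne
  · exact ⟨0, fun _ _ _ hx => hx.elim⟩
  obtain ⟨z, hz, hm⟩ := hK.exists_isMinOn hne (f := fun x => |dz y x - √2|)
    ((continuous_dz y).sub continuous_const).abs.continuousOn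
  have h0 : 0 < |dz y z - √2| := abs_pos.2 (sub_ne_zero.2 (disjoint_left.1 hd hz))
  obtain ⟨D, hD⟩ := hK.isBounded.exists_norm_le
  obtain ⟨R, hR⟩ := cyl_near hy h D (half_pos h0)
  refine ⟨R + D, fun lam hl x hx hS => ?_⟩
  have e : dz y (x + lam • y) = dz y x := by rw [← dz_proj hy _ lam, add_sub_cancel_right]
  have h1 := hR _ hS (by
    have := abs_real_inner_le_norm y x
    rw [hy, one_mul] at this
    rw [inner_add_right, inner_smul_right, real_inner_self_eq_norm_sq, hy]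
    linarith [(abs_le.1 this).1, hD x hx]) (by rw [e]; exact (dz_le_norm hy x).trans (hD x hx))
  rw [e] at h1
  have h2 : |dz y z - √2| ≤ |dz y x - √2| := hm hx
  linarith

/-- points of the cylinder are approximated by the far translates of `S` -/
theorem cyl_pt (hy : ‖y‖ = 1) (h : CylLim y S) {p : E} (hp : p ∈ cyl y) {η : ℝ} (hη : 0 < η) :
    ∃ Λ : ℝ, ∀ lam ≥ Λ, ∃ x, dist x p < η ∧ x + lam • y ∈ S := by
  obtain ⟨R, hR⟩ := cyl_approx hy h (half_pos hη)
  refine ⟨R - ⟪y, p⟫, fun lam hl => ?_⟩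
  obtain ⟨x, hx, -, h1⟩ := hR (p + lam • y) (by
    rw [inner_add_right, inner_smul_right, real_inner_self_eq_norm_sq, hy]; linarith)
  have e : dz y (p + lam • y) = √2 := by rw [← dz_proj hy _ lam, add_sub_cancel_right]; exact hp
  refine ⟨x - lam • y, ?_, by rwa [sub_add_cancel]⟩
  rw [e, sub_self, abs_zero, zero_add] at h1
  rw [dist_eq_norm, show x - lam • y - p = x - (p + lam • y) by abel]
  linarith

/-- **E5**, fields as in `Ends` -/
theorem tube_of (Q : E ≃ₗᵢ[ℝ] E) (S : Set E) (h : CylLim (Q (ee 0)) S) :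
    ∃ (R : ℝ) (r : ℝ × ℝ → ℝ), ContDiffOn ℝ ∞ r {q | R < q.1} ∧
      (∀ s θ, r (s, θ + 2 * Real.pi) = r (s, θ)) ∧ (∀ q : ℝ × ℝ, R < q.1 → 1 < r q ∧ r q < 2) ∧
      (∀ (k : ℕ) (δ : ℝ), 0 < δ → ∃ s₀ : ℝ, ∀ q : ℝ × ℝ, s₀ < q.1 →
        ‖iteratedFDeriv ℝ k (fun q => r q - √2) q‖ ≤ δ) ∧
      ∀ x : E, R < x 0 → √(x 1 ^ 2 + x 2 ^ 2) ≤ 2 →
        (Q x ∈ S ↔ ∃ θ, x = cylP (x 0) (r (x 0, θ)) θ) := by
  obtain ⟨R, r, h⟩ := polar (b := bQ Q) (S := S) (by rwa [bQ_apply])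
  refine ⟨R, r, h.sm, h.per, h.rng, fun k δ hδ => ?_, fun x hR h1 => ⟨fun hS => ?_, ?_⟩⟩
  · obtain ⟨R', hR'⟩ := h.lim k δ hδ
    exact ⟨R', fun q hq => hR' q hq.le⟩
  · obtain ⟨θ, hθ⟩ := exists_pol (bQ Q) (Q x)
    rw [bQ_apply, ax_Q] at hθ
    have h2 := (h.mem (x 0, θ) hR _ ⟨dz_nonneg _ _, by rwa [dz_Q]⟩).1 (hθ ▸ hS)
    rw [h2, pol_bQ] at hθ
    exact ⟨θ, Q.injective hθ⟩
  · rintro ⟨θ, hθ⟩
    have h1 := h.rng (x 0, θ) hR
    rw [hθ, ← pol_bQ]
    exact (h.mem (x 0, θ) hR _ ⟨by linarith [h1.1], h1.2.le⟩).2 rfl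


end Crest.Agent.N250.EP
end
end

-- ▼ part N250/E/Stm
section

/-! Row 250, block E (helper28): the leaves of `EStmt`. -/

set_option autoImplicit false
open MeasureTheory Set Filter Topology
open scoped ContDiff RealInnerProductSpace
open Crest.GeometryTopology.MCF

noncomputable section

namespace Crest.Agent.N250.E

/-- a regular (conical or empty) direction -/
def RegDir (S : Mv) (y : E) : Prop :=
  ∃ δ c R : ℝ, 0 < δ ∧ 0 < c ∧ ∀ x ∈ S.sl 0, R < ‖x‖ → dist (‖x‖⁻¹ • x) y < δ →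
    S.Reach (x, 0) (c * ‖x‖)

/-- E1–E3 (helper85) -/
def DichS : Prop := ∀ (S : Mv) (Λ : ℝ) (m : Md), Sh S Λ m → ∀ y : E, ‖y‖ = 1 →
  RegDir S y ∨ EP.CylLim y (S.sl 0)

/-- the density at `(y, 0)` exists (helper85) -/
def ThS : Prop := ∀ (S : Mv) (Λ : ℝ) (m : Md), Sh S Λ m → ∀ y : E,
  ∃ θ : ℝ, Tendsto (fun lam : ℝ => gA (S.sl 0) (lam • y) 1) atTop (𝓝 θ)

/-- Kuratowski convergence to the cylinder (helper94) -/
def KurS : Prop := ∀ (y : E) (A : Set E), ‖y‖ = 1 → EP.CylLim y A →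
  (∀ K : Set E, IsCompact K → Disjoint K (EP.cyl y) →
    ∃ Λ : ℝ, ∀ lam, Λ ≤ lam → ∀ x ∈ K, x + lam • y ∉ A) ∧
  ∀ p ∈ EP.cyl y, ∀ η : ℝ, 0 < η → ∃ Λ : ℝ, ∀ lam, Λ ≤ lam → ∃ x, dist x p < η ∧ x + lam • y ∈ A

/-- E5, the polar graph (helper94) -/
def TubeS : Prop := ∀ (Q : E ≃ₗᵢ[ℝ] E) (A : Set E), EP.CylLim (Q (ee 0)) A →
  ∃ (R : ℝ) (r : ℝ × ℝ → ℝ), ContDiffOn ℝ ∞ r {q | R < q.1} ∧
    (∀ s θ, r (s, θ + 2 * Real.pi) = r (s, θ)) ∧ (∀ q : ℝ × ℝ, R < q.1 → 1 < r q ∧ r q < 2) ∧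
    (∀ (k : ℕ) (δ : ℝ), 0 < δ → ∃ s₀ : ℝ, ∀ q : ℝ × ℝ, s₀ < q.1 →
      ‖iteratedFDeriv ℝ k (fun q => r q - √2) q‖ ≤ δ) ∧
    ∀ x : E, R < x 0 → √(x 1 ^ 2 + x 2 ^ 2) ≤ 2 →
      (Q x ∈ A ↔ ∃ θ, x = cylP (x 0) (r (x 0, θ)) θ)

theorem kurS : KurS := fun _ _ hy h =>
  ⟨fun _ hK hd => EP.cyl_far hy h hK hd, fun _ hp _ hη => EP.cyl_pt hy h hp hη⟩

theorem tubeS : TubeS := EP.tube_of


end Crest.Agent.N250.E

end
end

-- ▼ part N250/E/Cone
section

/-! Row 250, block E (helper28): the clean cone about a cylindrical direction (E4); such directions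
are isolated. -/

set_option autoImplicit false
open MeasureTheory Set Filter Topology Metric
open scoped ContDiff RealInnerProductSpace
open Crest.GeometryTopology.MCF

noncomputable section

namespace Crest.Agent.N250.E

open EP (dz cyl CylLim)

theorem dz_nonneg (y x : E) : 0 ≤ dz y x := norm_nonneg _

theorem dz_add_le (y x z : E) : dz y (x + z) ≤ dz y x + dz y z := by
  unfold dz
  rw [inner_add_right, add_smul, show x + z - (⟪y, x⟫ • y + ⟪y, z⟫ • y) =
    (x - ⟪y, x⟫ • y) + (z - ⟪y, z⟫ • y) by abel]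
  exact norm_add_le _ _

theorem dz_smul (y x : E) {a : ℝ} (ha : 0 ≤ a) : dz y (a • x) = a * dz y x := by
  unfold dz
  rw [inner_smul_right, mul_smul, ← smul_sub, norm_smul, Real.norm_eq_abs, abs_of_nonneg ha]


theorem dz_add_smul {y : E} (hy : ‖y‖ = 1) (x : E) (a : ℝ) : dz y (x + a • y) = dz y x := by
  unfold dz
  rw [inner_add_right, inner_smul_right, real_inner_self_eq_norm_sq, hy, add_smul]
  congr 1; simp

theorem dz_sq {y : E} (hy : ‖y‖ = 1) (x : E) : dz y x ^ 2 = ‖x‖ ^ 2 - ⟪y, x⟫ ^ 2 := by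
  unfold dz
  rw [norm_sub_sq_real, inner_smul_right, norm_smul, hy, real_inner_comm y x, Real.norm_eq_abs,
    mul_one, sq_abs]
  ring

theorem dz_le {y : E} (hy : ‖y‖ = 1) (x : E) : dz y x ≤ ‖x‖ :=
  (pow_le_pow_iff_left₀ (dz_nonneg y x) (norm_nonneg x) two_ne_zero).1
    (by rw [dz_sq hy]; linarith [sq_nonneg ⟪y, x⟫])

theorem dz_sub_le {y : E} (hy : ‖y‖ = 1) (x z : E) : dz y x ≤ dz y z + ‖x - z‖ := by
  have := dz_add_le y z (x - z)
  rw [add_sub_cancel] at this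
  linarith [dz_le hy (x - z)]

theorem continuous_dz (y : E) : Continuous (dz y) := by unfold dz; fun_prop

theorem norm_le_dz {y : E} (hy : ‖y‖ = 1) (x : E) : ‖x‖ ≤ |⟪y, x⟫| + dz y x := by
  have h1 := dz_sq hy x
  have h2 := dz_nonneg y x
  have h3 := abs_nonneg ⟪y, x⟫
  refine (pow_le_pow_iff_left₀ (norm_nonneg x) (by positivity) two_ne_zero).1 ?_
  nlinarith [sq_abs ⟪y, x⟫, mul_nonneg h2 h3]

theorem abs_inner_le {y : E} (hy : ‖y‖ = 1) (x : E) : |⟪y, x⟫| ≤ ‖x‖ := by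
  simpa [hy] using abs_real_inner_le_norm y x

/-- static sphere avoidance -/
def Av (A : Set E) : Prop := ∀ (p : E) (μ R : ℝ), 1 ≤ μ → 0 ≤ R → (∀ y ∈ A, R ≤ ‖μ • y - p‖) →
  ∀ x ∈ A, R ^ 2 - 4 * (μ ^ 2 - 1) ≤ ‖x - p‖ ^ 2

theorem av_of (hA : AvoidS) {S : Mv} {Λ : ℝ} {m : Md} (hS : Sh S Λ m) : Av (S.sl 0) := by
  intro p μ R hμ hR h x hx
  have hμ0 : 0 < μ := by linarith
  have h1 := hA S.unresc hS.cl.fl.mcf p R (-μ ^ 2) (-1) hR
    (fun q hq hq' => hS.cl.fl.proper q hq ⟨trivial, by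
      have := hq'.2.2
      change q.2 < 0
      linarith⟩)
    (fun z hz => by
      have hz' := (unr_mem' hS.shr.st z hμ0).1 hz
      have := h _ hz'
      rwa [smul_smul, mul_inv_cancel₀ hμ0.ne', one_smul, ← dist_eq_norm] at this)
    (-1) ⟨by nlinarith, le_rfl⟩ x (by rw [unr_sl_one hS.shr.st]; exact hx)
  rw [dist_eq_norm] at h1
  linarith

/-- E4: the clean cone -/
theorem clean (hK : KurS) {A : Set E} (hA : Av A) {y : E} (hy : ‖y‖ = 1) (h : CylLim y A) :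
    ∃ ε R : ℝ, 0 < ε ∧ ∀ x ∈ A, R ≤ ⟪y, x⟫ → dz y x ≤ ε * ⟪y, x⟫ → dz y x < 2 := by
  have hc : IsCompact (closedBall (0 : E) 10 ∩ {x | 2 ≤ dz y x}) :=
    (isCompact_closedBall _ _).inter_right (isClosed_le continuous_const (continuous_dz y))
  have h2 : √2 < 2 := by
    rw [Real.sqrt_lt' two_pos]; norm_num
  obtain ⟨Λ, hΛ⟩ := (hK y A hy h).1 _ hc (Set.disjoint_left.2 fun x hx hx' => by
    have a : 2 ≤ dz y x := hx.2
    have b : dz y x = √2 := hx'
    linarith)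
  have hL : 0 < max Λ 1 := lt_max_of_lt_right one_pos
  refine ⟨(max Λ 1)⁻¹, Λ, inv_pos.2 hL, fun x hx hR hε => ?_⟩
  by_contra hd
  push Not at hd
  set s := ⟪y, x⟫ with hs
  set d := dz y x with hdd
  have hw : ‖x - s • y‖ = d := rfl
  have hdw : dz y (x - s • y) = d := by
    rw [sub_eq_add_neg, ← neg_smul, dz_add_smul hy]
  by_cases h10 : d ≤ 10
  · refine hΛ s hR (x - s • y) ⟨by rw [mem_closedBall_zero_iff, hw]; exact h10, ?_⟩ (by simpa using hx)
    change 2 ≤ dz y _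
    rw [hdw]; exact hd
  push Not at h10
  have hd0 : 0 < d := by linarith
  have key := hA x (d / 5) (d / 2) (by linarith) (by linarith) (fun z hz => by
    by_contra hlt
    push Not at hlt
    have e1 : (d / 5) • z - x = (d / 5) • (z - (5 / d) • x) := by
      rw [smul_sub, smul_smul]; congr 1
      rw [show d / 5 * (5 / d) = 1 by field_simp, one_smul]
    rw [e1, norm_smul, Real.norm_eq_abs, abs_of_pos (by linarith)] at hlt
    have h3 : ‖z - (5 / d) • x‖ < 5 / 2 := by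
      by_contra hcon
      push Not at hcon
      nlinarith
    have h5 : 0 ≤ 5 / d := by positivity
    have hlam : Λ ≤ 5 / d * s := by
      have a1 : max Λ 1 * d ≤ s := by
        rwa [inv_mul_eq_div, le_div_iff₀ hL, mul_comm] at hε
      have a2 : max Λ 1 ≤ s / d := by rwa [le_div_iff₀ hd0]
      have a3 : 5 / d * s = 5 * (s / d) := by ring
      linarith [le_max_left Λ 1]
    have e2 : z - (5 / d * s) • y - (5 / d) • (x - s • y) = z - (5 / d) • x := by
      rw [smul_sub, smul_smul]; abel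
    have n1 : ‖(5 / d) • (x - s • y)‖ = 5 := by
      rw [norm_smul, hw, Real.norm_eq_abs, abs_of_nonneg h5]; field_simp
    have n2 : dz y ((5 / d) • (x - s • y)) = 5 := by
      rw [dz_smul _ _ h5, hdw]; field_simp
    refine hΛ _ hlam (z - (5 / d * s) • y) ⟨?_, ?_⟩ (by simpa using hz)
    · rw [mem_closedBall_zero_iff]
      have := norm_add_le (z - (5 / d * s) • y - (5 / d) • (x - s • y)) ((5 / d) • (x - s • y))
      rw [sub_add_cancel, e2, n1] at this
      linarith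
    · change 2 ≤ dz y _
      have := dz_sub_le hy ((5 / d) • (x - s • y)) (z - (5 / d * s) • y)
      rw [n2, norm_sub_rev, e2] at this
      linarith) x hx
  rw [sub_self, norm_zero] at key
  nlinarith

theorem exists_Q {y : E} (hy : ‖y‖ = 1) : ∃ Q : E ≃ₗᵢ[ℝ] E, Q (ee 0) = y :=
  ⟨(ℝ ∙ (ee 0 - y))ᗮ.reflection, Submodule.reflection_sub (by simp [hy])⟩

theorem inner_Q (Q : E ≃ₗᵢ[ℝ] E) (x : E) : ⟪Q (ee 0), Q x⟫ = x 0 := by
  rw [Q.inner_map_map]; simp [EuclideanSpace.inner_single_left]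

theorem norm_Q (Q : E ≃ₗᵢ[ℝ] E) : ‖Q (ee 0)‖ = 1 := by simp

theorem dz_Q (Q : E ≃ₗᵢ[ℝ] E) (x : E) : dz (Q (ee 0)) (Q x) = √(x 1 ^ 2 + x 2 ^ 2) := by
  rw [← Real.sqrt_sq (dz_nonneg (Q (ee 0)) (Q x)), dz_sq (norm_Q Q), inner_Q, Q.norm_map,
    EuclideanSpace.real_norm_sq_eq, Fin.sum_univ_three]
  congr 1; ring

theorem mem_cone0 (Q : E ≃ₗᵢ[ℝ] E) (ε : ℝ) (x : E) :
    Q.symm x ∈ cone0 ε ↔ dz (Q (ee 0)) x ≤ ε * ⟪Q (ee 0), x⟫ := by
  have h1 := dz_Q Q (Q.symm x)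
  have h2 := inner_Q Q (Q.symm x)
  rw [Q.apply_symm_apply] at h1 h2
  rw [h1, h2]; rfl

theorem exists_cyl {y : E} (hy : ‖y‖ = 1) : ∃ p ∈ cyl y, ‖p‖ ≤ 2 := by
  obtain ⟨Q, rfl⟩ := exists_Q hy
  refine ⟨Q (√2 • ee 1), ?_, ?_⟩
  · change dz _ _ = _
    rw [dz_Q]; simp
  · rw [Q.norm_map, norm_smul]
    simp only [Real.norm_eq_abs, PiLp.norm_single, norm_one, mul_one,
      abs_of_nonneg (Real.sqrt_nonneg 2)]
    rw [Real.sqrt_le_iff]; norm_num

/-- cylindrical directions are isolated -/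
theorem isolated (hK : KurS) {A : Set E} (hA : Av A) {y : E} (hy : ‖y‖ = 1) (h : CylLim y A) :
    ∃ δ : ℝ, 0 < δ ∧ ∀ y' : E, ‖y'‖ = 1 → dist y' y < δ → CylLim y' A → y' = y := by
  obtain ⟨ε, R, hε, hc⟩ := clean hK hA hy h
  refine ⟨min (ε / 4) (1 / 2), by positivity, fun y' hy' hd h' => ?_⟩
  by_contra hne
  rw [dist_eq_norm] at hd
  have hd1 : ‖y' - y‖ < ε / 4 := hd.trans_le (min_le_left _ _)
  have hd2 : ‖y' - y‖ < 1 / 2 := hd.trans_le (min_le_right _ _)
  have hyy : ⟪y, y⟫ = 1 := by rw [real_inner_self_eq_norm_sq, hy]; norm_num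
  have hi : 1 / 2 < ⟪y, y'⟫ := by
    have := abs_inner_le hy (y' - y)
    rw [inner_sub_right, hyy, abs_le] at this
    linarith [this.1]
  have ha1 : dz y y' < ε / 4 := by
    have h1 := dz_le hy (y' - y)
    have h2 := dz_add_smul hy (y' - y) 1
    rw [one_smul, sub_add_cancel] at h2
    linarith
  have ha0 : 0 < dz y y' := by
    refine (dz_nonneg y y').lt_of_ne fun h0 => hne ?_
    have h1 := dz_sq hy y'
    rw [← h0, hy'] at h1
    have h2 : ⟪y, y'⟫ = 1 := by nlinarith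
    have h3 : ‖y' - ⟪y, y'⟫ • y‖ = 0 := h0.symm
    rwa [h2, one_smul, norm_eq_zero, sub_eq_zero] at h3
  set a := dz y y'
  obtain ⟨p, hp, hp2⟩ := exists_cyl hy'
  obtain ⟨Λ, hΛ⟩ := (hK y' A hy' h').2 p hp 1 one_pos
  obtain ⟨lam, h1, h2, h3, h4⟩ : ∃ lam : ℝ, Λ ≤ lam ∧ 5 / a ≤ lam ∧ (12 + 12 * ε) / ε ≤ lam ∧
      2 * (R + 3) ≤ lam :=
    ((eventually_ge_atTop _).and ((eventually_ge_atTop _).and ((eventually_ge_atTop _).and
      (eventually_ge_atTop _)))).exists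
  obtain ⟨x, hx, hxA⟩ := hΛ lam h1
  have hl : 0 < lam := lt_of_lt_of_le (by positivity) h2
  rw [div_le_iff₀ ha0] at h2
  rw [div_le_iff₀ hε] at h3
  have hx3 : ‖x‖ < 3 := by
    have := norm_add_le (x - p) p
    rw [sub_add_cancel, ← dist_eq_norm] at this
    linarith
  have e1 : dz y (lam • y') = lam * a := dz_smul _ _ hl.le
  have u1 := dz_sub_le hy (x + lam • y') (lam • y')
  have u2 := dz_sub_le hy (lam • y') (x + lam • y')
  rw [e1, add_sub_cancel_right] at u1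
  rw [e1, norm_sub_rev, add_sub_cancel_right] at u2
  have u3 : lam / 2 - 3 ≤ ⟪y, x + lam • y'⟫ := by
    rw [inner_add_right, inner_smul_right]
    have := abs_inner_le hy x
    rw [abs_le] at this
    nlinarith [this.1]
  have := hc _ hxA (by linarith) (by nlinarith)
  linarith

/-- two narrow cones with a common point have close axes -/
theorem axes_close {y y' x : E} (hy : ‖y‖ = 1) (hy' : ‖y'‖ = 1) {ε : ℝ} (hε : 0 < ε) (hx : x ≠ 0)
    (h : dz y x ≤ ε * ⟪y, x⟫) (h' : dz y' x ≤ ε * ⟪y', x⟫) : dist y y' ≤ 4 * ε := by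
  have k : ∀ e : E, ‖e‖ = 1 → dz e x ≤ ε * ⟪e, x⟫ → ‖x - ‖x‖ • e‖ ≤ 2 * ε * ‖x‖ := by
    intro e he h
    have h0 : 0 ≤ ⟪e, x⟫ := by
      by_contra hc
      push Not at hc
      nlinarith [dz_nonneg e x]
    have h1 := norm_le_dz he x
    have h2 := abs_inner_le he x
    rw [abs_of_nonneg h0] at h1 h2
    have h3 := norm_sub_le (x - ⟪e, x⟫ • e) ((‖x‖ - ⟪e, x⟫) • e)
    rw [norm_smul, he, mul_one, Real.norm_eq_abs, abs_of_nonneg (by linarith),
      show x - ⟪e, x⟫ • e - (‖x‖ - ⟪e, x⟫) • e = x - ‖x‖ • e by rw [sub_smul]; abel] at h3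
    have h4 : ‖x - ⟪e, x⟫ • e‖ = dz e x := rfl
    nlinarith
  have h1 := k y hy h
  have h2 := k y' hy' h'
  have h3 := norm_sub_le (x - ‖x‖ • y') (x - ‖x‖ • y)
  rw [sub_sub_sub_cancel_left, ← smul_sub, norm_smul, norm_norm, ← dist_eq_norm] at h3
  have h0 : 0 < ‖x‖ := norm_pos_iff.2 hx
  nlinarith

end Crest.Agent.N250.E

end
end

-- ▼ part N250/E/Hs
section

/-!
Row 250, block E (helper85): static oriented surfaces `(S, n)`, tangent curves, invariance under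
translations.
-/

set_option autoImplicit false

open Set Filter Topology Real
open scoped ContDiff InnerProductSpace
open Crest.GeometryTopology.MCF

noncomputable section

namespace Crest.Agent.N250.Cls

/-- `S` is a closed smooth surface with unit normal `n` -/
structure Hs (S : Set E) (n : E → E) : Prop where
  closed : IsClosed S
  loc : ∀ x ∈ S, ∃ (U : Set E) (ψ : E → ℝ), IsOpen U ∧ x ∈ U ∧ ContDiffOn ℝ ∞ ψ U ∧
    (∀ z ∈ U, gradient ψ z ≠ 0) ∧ (∀ z ∈ U, z ∈ S ↔ ψ z = 0) ∧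
    ∀ z ∈ U, z ∈ S → n z = ‖gradient ψ z‖⁻¹ • gradient ψ z

lemma inner_gradient (ψ : E → ℝ) (z v : E) : ⟪gradient ψ z, v⟫_ℝ = fderiv ℝ ψ z v :=
  InnerProductSpace.toDual_symm_apply

lemma cd_gradient {ψ : E → ℝ} {z : E} (h : ContDiffAt ℝ ∞ ψ z) : ContDiffAt ℝ ∞ (gradient ψ) z := by
  have h1 : ContDiffAt ℝ ∞ (fderiv ℝ ψ) z := h.fderiv_right (m := ∞) (by simp)
  exact ((InnerProductSpace.toDual ℝ E).symm.toContinuousLinearEquiv.contDiff.contDiffAt).comp z h1

lemma cd_unit {ψ : E → ℝ} {z : E} (h : ContDiffAt ℝ ∞ ψ z) (h0 : gradient ψ z ≠ 0) :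
    ContDiffAt ℝ ∞ (fun z => ‖gradient ψ z‖⁻¹ • gradient ψ z) z :=
  (((cd_gradient h).norm ℝ h0).inv (norm_ne_zero_iff.2 h0)).smul (cd_gradient h)

lemma inner_unit {v : E} (h : v ≠ 0) : ⟪‖v‖⁻¹ • v, ‖v‖⁻¹ • v⟫_ℝ = 1 := by
  have := norm_ne_zero_iff.2 h
  rw [real_inner_smul_left, real_inner_smul_right, real_inner_self_eq_norm_sq]
  field_simp

namespace Hs

variable {S : Set E} {n : E → E} (s : Hs S n)
include s

lemma unit {x : E} (hx : x ∈ S) : ⟪n x, n x⟫_ℝ = 1 := by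
  obtain ⟨U, ψ, -, xU, -, h0, -, hn⟩ := s.loc x hx
  rw [hn x xU hx]
  exact inner_unit (h0 x xU)

/-- the normal has a smooth local extension -/
lemma ext {x : E} (hx : x ∈ S) : ∃ ν : E → E, ContDiffAt ℝ ∞ ν x ∧ n =ᶠ[𝓝[S] x] ν ∧ n x = ν x := by
  obtain ⟨U, ψ, hU, xU, hψ, h0, -, hn⟩ := s.loc x hx
  refine ⟨_, cd_unit (hψ.contDiffAt (hU.mem_nhds xU)) (h0 x xU), ?_, hn x xU hx⟩
  filter_upwards [self_mem_nhdsWithin, mem_nhdsWithin_of_mem_nhds (hU.mem_nhds xU)] with z h1 h2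
  exact hn z h2 h1

lemma cont : ContinuousOn n S := fun x hx => by
  obtain ⟨ν, h1, h2, h3⟩ := s.ext hx
  exact h1.continuousAt.continuousWithinAt.congr_of_eventuallyEq h2 h3

lemma neg : Hs S fun x => -n x := by
  refine ⟨s.closed, fun x hx => ?_⟩
  obtain ⟨U, ψ, hU, xU, hψ, h0, hm, hn⟩ := s.loc x hx
  have e : ∀ z, gradient (fun z => -ψ z) z = -gradient ψ z := fun z => by
    simp only [gradient, fderiv_fun_neg, map_neg]
  refine ⟨U, fun z => -ψ z, hU, xU, hψ.neg, fun z hz => ?_, fun z hz => ?_, fun z hz hs => ?_⟩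
  · rw [e]; exact neg_ne_zero.2 (h0 z hz)
  · rw [hm z hz, neg_eq_zero]
  · rw [e, hn z hz hs, norm_neg, smul_neg]

/-- the normal is orthogonal to the velocity of every curve in `S` -/
lemma perp {c : ℝ → E} {v : E} {t : ℝ} (hc : HasDerivAt c v t) (hS : ∀ᶠ u in 𝓝 t, c u ∈ S) :
    ⟪n (c t), v⟫_ℝ = 0 := by
  have hx := hS.self_of_nhds
  obtain ⟨U, ψ, hU, xU, hψ, h0, hm, hn⟩ := s.loc _ hx
  have d : HasDerivAt (ψ ∘ c) (fderiv ℝ ψ (c t) v) t :=
    ((hψ.contDiffAt (hU.mem_nhds xU)).differentiableAt (by simp)).hasFDerivAt.comp_hasDerivAt t hc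
  have z : ψ ∘ c =ᶠ[𝓝 t] fun _ => 0 := by
    filter_upwards [hS, hc.continuousAt.preimage_mem_nhds (hU.mem_nhds xU)] with u h1 h2
    exact (hm _ h2).1 h1
  have e : fderiv ℝ ψ (c t) v = 0 := d.unique ((hasDerivAt_const t (0 : ℝ)).congr_of_eventuallyEq z)
  rw [hn _ xU hx, real_inner_smul_left, inner_gradient, e, mul_zero]

lemma perp_line {x v : E} (h : ∀ u : ℝ, x + u • v ∈ S) : ⟪n x, v⟫_ℝ = 0 := by
  have d : HasDerivAt (fun u : ℝ => x + u • v) v 0 := by
    simpa using ((hasDerivAt_id (0 : ℝ)).smul_const v).const_add x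
  simpa using s.perp d (Eventually.of_forall h)

/-- integral curves of tangent fields `T ∘ n` -/
lemma flow {T : E → E} (hT : ContDiff ℝ 1 T) (hp : ∀ v, ⟪v, v⟫_ℝ = 1 → ⟪v, T v⟫_ℝ = 0) {x : E}
    (hx : x ∈ S) :
    ∃ c : ℝ → E, c 0 = x ∧ ∀ᶠ u in 𝓝 (0 : ℝ), c u ∈ S ∧ HasDerivAt c (T (n (c u))) u := by
  obtain ⟨U, ψ, hU, xU, hψ, h0, hm, hn⟩ := s.loc x hx
  set ν : E → E := fun z => ‖gradient ψ z‖⁻¹ • gradient ψ z with hν
  have c1 : ContDiffAt ℝ 1 (fun z => T (ν z)) x :=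
    hT.contDiffAt.comp x ((cd_unit (hψ.contDiffAt (hU.mem_nhds xU)) (h0 x xU)).of_le (by simp))
  obtain ⟨c, c0, ε, hε, hc⟩ :=
    c1.exists_forall_mem_closedBall_exists_eq_forall_mem_Ioo_hasDerivAt₀ 0
  have m0 : Ioo (0 - ε) (0 + ε) ∈ 𝓝 (0 : ℝ) := Ioo_mem_nhds (by linarith) (by linarith)
  have m1 : c ⁻¹' U ∈ 𝓝 (0 : ℝ) :=
    (hc 0 (mem_of_mem_nhds m0)).continuousAt.preimage_mem_nhds (hU.mem_nhds (c0 ▸ xU))
  obtain ⟨δ, hδ, hb⟩ := Metric.mem_nhds_iff.1 (inter_mem m0 m1)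
  have d : ∀ u ∈ Metric.ball (0 : ℝ) δ, HasDerivAt (ψ ∘ c) 0 u := fun u hu => by
    have uU : c u ∈ U := (hb hu).2
    have d := ((hψ.contDiffAt (hU.mem_nhds uU)).differentiableAt
      (by simp)).hasFDerivAt.comp_hasDerivAt u (hc u (hb hu).1)
    refine d.congr_deriv ?_
    have e := hp (ν (c u)) (inner_unit (h0 _ uU))
    rw [hν, real_inner_smul_left, inner_gradient] at e
    exact (mul_eq_zero.1 e).resolve_left (inv_ne_zero (norm_ne_zero_iff.2 (h0 _ uU)))
  have k : ∀ u ∈ Metric.ball (0 : ℝ) δ, ψ (c u) = 0 := fun u hu => by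
    have := Metric.isOpen_ball.is_const_of_deriv_eq_zero (convex_ball (0 : ℝ) δ).isPreconnected
      (fun u hu => (d u hu).differentiableAt.differentiableWithinAt) (fun u hu => (d u hu).deriv)
      hu (Metric.mem_ball_self hδ)
    simp only [Function.comp] at this
    rw [this, c0]
    exact (hm x xU).1 hx
  refine ⟨c, c0, ?_⟩
  filter_upwards [Metric.ball_mem_nhds 0 hδ] with u hu
  have uU : c u ∈ U := (hb hu).2
  have uS := (hm _ uU).2 (k u hu)
  refine ⟨uS, ?_⟩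
  rw [hn _ uU uS]
  exact hc u (hb hu).1

/-- if the normal is orthogonal to `y` the surface is invariant under translation by `y` -/
theorem inv {y : E} (h : ∀ x ∈ S, ⟪n x, y⟫_ℝ = 0) {x : E} (hx : x ∈ S) (t : ℝ) : x + t • y ∈ S := by
  have cl : Continuous fun t : ℝ => x + t • y := by fun_prop
  have : IsClopen {t : ℝ | x + t • y ∈ S} := by
    refine ⟨s.closed.preimage cl, isOpen_iff_mem_nhds.2 fun t ht => ?_⟩
    obtain ⟨c, c0, hc⟩ := s.flow (T := fun v => y - ⟪v, y⟫_ℝ • v)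
      (contDiff_const.sub ((contDiff_id.inner ℝ contDiff_const).smul contDiff_id))
      (fun v hv => by rw [inner_sub_right, real_inner_smul_right, hv, mul_one, sub_self]) ht
    obtain ⟨δ, hδ, hb⟩ := Metric.eventually_nhds_iff_ball.1 hc
    have d : ∀ u ∈ Metric.ball (0 : ℝ) δ, HasDerivAt (fun u => c u - u • y) 0 u := fun u hu => by
      have := (hb u hu).2
      rw [h _ (hb u hu).1, zero_smul, sub_zero] at this
      exact (this.sub ((hasDerivAt_id u).smul_const y)).congr_deriv (by simp)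
    have k : ∀ u ∈ Metric.ball (0 : ℝ) δ, c u - u • y = x + t • y := fun u hu => by
      have := Metric.isOpen_ball.is_const_of_deriv_eq_zero (convex_ball (0 : ℝ) δ).isPreconnected
        (fun u hu => (d u hu).differentiableAt.differentiableWithinAt) (fun u hu => (d u hu).deriv)
        hu (Metric.mem_ball_self hδ)
      rw [this, c0, zero_smul, sub_zero]
    refine Metric.mem_nhds_iff.2 ⟨δ, hδ, fun u hu => ?_⟩
    have hu' : u - t ∈ Metric.ball (0 : ℝ) δ := by simpa [Real.dist_eq] using hu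
    have e : x + u • y = c (u - t) := by
      rw [← sub_add_cancel (c (u - t)) ((u - t) • y), k _ hu', add_assoc, ← add_smul]
      simp
    exact (show x + u • y ∈ S from e ▸ (hb _ hu').1)
  have u := this.eq_univ ⟨0, by simpa using hx⟩
  exact (u ▸ mem_univ t : t ∈ {t : ℝ | x + t • y ∈ S})

end Hs

/-- the slice of a static closed surface -/
theorem hs_of {F : Mv} (hr : F.Reg) (hc : IsClosed F.M) (t : ℝ) :
    Hs (F.sl t) fun x => F.n (x, t) := by
  have ci : ContDiff ℝ ∞ fun x : E => ((x, t) : ST) := contDiff_id.prodMk contDiff_const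
  refine ⟨hc.preimage ci.continuous, fun x hx => ?_⟩
  obtain ⟨W, φ, hW, L⟩ := hr (x, t) hx
  exact ⟨(fun x : E => ((x, t) : ST)) ⁻¹' W, fun z => φ (z, t), L.isOpen.preimage ci.continuous, hW,
    L.sm.comp ci.contDiffOn fun z hz => hz, fun z hz => L.ne (z, t) hz, fun z hz => L.mem (z, t) hz,
    fun z hz hs => L.n_eq (z, t) hz hs⟩

end Crest.Agent.N250.Cls

end
end

-- ▼ part N250/E/Ode
section

/-!
Row 250, block E (helper85): the support function equation `h'' + h = 2 / h` of shrinking curves.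
-/

set_option autoImplicit false

open Set Filter Topology Real

noncomputable section

namespace Crest.Agent.N250.Ode

/-- Sturm, `q > 1`: a zero in every interval of length `π` -/
lemma sturm1' {u v q : ℝ → ℝ} (hu : ∀ t, HasDerivAt u (v t) t)
    (hv : ∀ t, HasDerivAt v (-(q t * u t)) t) (hq : ∀ t, 1 < q t) (a : ℝ)
    (h : ∀ t ∈ Ioo a (a + π), 0 < u t) : False := by
  have cu : Continuous u := continuous_iff_continuousAt.2 fun t => (hu t).continuousAt
  have d : ∀ t, HasDerivAt (fun t => v t * sin (t - a) - u t * cos (t - a))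
      ((1 - q t) * u t * sin (t - a)) t := fun t => by
    have := ((hv t).mul ((hasDerivAt_id t).sub_const a).sin).sub
      ((hu t).mul ((hasDerivAt_id t).sub_const a).cos)
    refine this.congr_deriv ?_
    simp only [id]
    ring
  have c : ∀ t ∈ Icc a (a + π), 0 ≤ u t := fun t ht => by
    rw [← closure_Ioo (by linarith [pi_pos])] at ht
    exact le_on_closure (f := fun _ => 0) (fun t ht => (h t ht).le) continuousOn_const
      cu.continuousOn ht
  have m := strictAntiOn_of_deriv_neg (convex_Icc a (a + π))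
    (continuous_iff_continuousAt.2 fun t => (d t).continuousAt).continuousOn (fun t ht => by
      rw [interior_Icc] at ht
      rw [(d t).deriv]
      exact mul_neg_of_neg_of_pos (mul_neg_of_neg_of_pos (by linarith [hq t]) (h t ht))
        (sin_pos_of_pos_of_lt_pi (by linarith [ht.1]) (by linarith [ht.2])))
    (left_mem_Icc.2 (by linarith [pi_pos])) (right_mem_Icc.2 (by linarith [pi_pos]))
    (by linarith [pi_pos])
  simp only [add_sub_cancel_left, sin_pi, cos_pi, sub_self, sin_zero, cos_zero] at m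
  linarith [c a (left_mem_Icc.2 (by linarith [pi_pos])),
    c (a + π) (right_mem_Icc.2 (by linarith [pi_pos]))]

/-- a continuous function without zeros on an interval has one sign -/
lemma one_sign {u : ℝ → ℝ} (cu : Continuous u) {a b : ℝ} (h : ∀ t ∈ Ioo a b, u t ≠ 0) :
    (∀ t ∈ Ioo a b, 0 < u t) ∨ ∀ t ∈ Ioo a b, u t < 0 := by
  by_contra hn
  push Not at hn
  obtain ⟨⟨s, hs, h1⟩, t, ht, h2⟩ := hn
  obtain ⟨x, hx, e⟩ := isPreconnected_Ioo.intermediate_value hs ht cu.continuousOn ⟨h1, h2⟩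
  exact h x hx e

lemma sturm1 {u v q : ℝ → ℝ} (hu : ∀ t, HasDerivAt u (v t) t)
    (hv : ∀ t, HasDerivAt v (-(q t * u t)) t) (hq : ∀ t, 1 < q t) (a : ℝ) :
    ∃ t ∈ Ioo a (a + π), u t = 0 := by
  by_contra hn
  push Not at hn
  rcases one_sign (continuous_iff_continuousAt.2 fun t => (hu t).continuousAt) hn with h | h
  · exact sturm1' hu hv hq a h
  · exact sturm1' (u := fun t => -u t) (v := fun t => -v t) (fun t => (hu t).neg)
      (fun t => (hv t).neg.congr_deriv (by ring)) hq a fun t ht => neg_pos.2 (h t ht)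

/-- Sturm, `q < 4`: consecutive zeros are more than `π / 2` apart -/
lemma sturm2' {u v q : ℝ → ℝ} (hu : ∀ t, HasDerivAt u (v t) t)
    (hv : ∀ t, HasDerivAt v (-(q t * u t)) t) (hq : ∀ t, q t < 4) {a b : ℝ} (hab : a < b)
    (hb : b ≤ a + π / 2) (ha0 : u a = 0) (hb0 : u b = 0) (h : ∀ t ∈ Ioo a b, 0 < u t) : False := by
  have d : ∀ t, HasDerivAt (fun t => v t * sin (2 * (t - a)) - 2 * (u t * cos (2 * (t - a))))
      ((4 - q t) * u t * sin (2 * (t - a))) t := fun t => by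
    have := ((hv t).mul (((hasDerivAt_id t).sub_const a).const_mul 2).sin).sub
      (((hu t).mul (((hasDerivAt_id t).sub_const a).const_mul 2).cos).const_mul 2)
    refine this.congr_deriv ?_
    simp only [id]
    ring
  have m := strictMonoOn_of_deriv_pos (convex_Icc a b)
    (continuous_iff_continuousAt.2 fun t => (d t).continuousAt).continuousOn (fun t ht => by
      rw [interior_Icc] at ht
      rw [(d t).deriv]
      exact mul_pos (mul_pos (by linarith [hq t]) (h t ht))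
        (sin_pos_of_pos_of_lt_pi (by linarith [ht.1]) (by linarith [ht.2])))
    (left_mem_Icc.2 hab.le) (right_mem_Icc.2 hab.le) hab
  simp only [sub_self, mul_zero, sin_zero, ha0, hb0, zero_mul] at m
  have s : 0 ≤ sin (2 * (b - a)) := sin_nonneg_of_nonneg_of_le_pi (by linarith) (by linarith)
  have l : v b ≤ 0 := by
    have t1 := (hasDerivAt_iff_tendsto_slope_left_right.1 (hu b)).1
    refine le_of_tendsto t1 ?_
    filter_upwards [Ioo_mem_nhdsLT hab] with t ht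
    rw [slope_def_field, hb0, sub_zero]
    exact div_nonpos_of_nonneg_of_nonpos (h t ht).le (by linarith [ht.2])
  nlinarith

lemma sturm2 {u v q : ℝ → ℝ} (hu : ∀ t, HasDerivAt u (v t) t)
    (hv : ∀ t, HasDerivAt v (-(q t * u t)) t) (hq : ∀ t, q t < 4) {a b : ℝ}
    (hb : b ≤ a + π / 2) (ha0 : u a = 0) (hb0 : u b = 0) : ∀ t ∈ Ioo a b, u t = 0 := by
  intro t ht
  by_contra hn
  have cu : Continuous u := continuous_iff_continuousAt.2 fun t => (hu t).continuousAt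
  have z : IsClosed {s | u s = 0} := isClosed_eq cu continuous_const
  obtain ⟨a', ⟨a1, a2⟩, a3⟩ := (isCompact_Icc.inter_right z (s := Icc a t)).exists_isGreatest
    ⟨a, left_mem_Icc.2 ht.1.le, ha0⟩
  obtain ⟨b', ⟨b1, b2⟩, b3⟩ := (isCompact_Icc.inter_right z (s := Icc t b)).exists_isLeast
    ⟨b, right_mem_Icc.2 ht.2.le, hb0⟩
  have l1 : a' < t := lt_of_le_of_ne a1.2 fun e => hn (e ▸ a2)
  have l2 : t < b' := lt_of_le_of_ne b1.1 fun e => hn (e ▸ b2)
  have n0 : ∀ s ∈ Ioo a' b', u s ≠ 0 := fun s hs e => by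
    rcases le_total s t with k | k
    · exact hs.1.not_ge (a3 ⟨⟨a1.1.trans hs.1.le, k⟩, e⟩)
    · exact hs.2.not_ge (b3 ⟨⟨k, hs.2.le.trans b1.2⟩, e⟩)
  have l3 : b' ≤ a' + π / 2 := by linarith [a1.1, b1.2]
  rcases one_sign cu n0 with h | h
  · exact sturm2' hu hv hq (l1.trans l2) l3 a2 b2 h
  · exact sturm2' (u := fun t => -u t) (v := fun t => -v t) (fun t => (hu t).neg)
      (fun t => (hv t).neg.congr_deriv (by ring)) hq (l1.trans l2) l3 (neg_eq_zero.2 a2)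
      (neg_eq_zero.2 b2) fun t ht => neg_pos.2 (h t ht)

/-- positive global solutions of `h' = g`, `g' = 2 / h - h` -/
structure Sol (h g : ℝ → ℝ) : Prop where
  pos : ∀ t, 0 < h t
  dh : ∀ t, HasDerivAt h (g t) t
  dg : ∀ t, HasDerivAt g (2 / h t - h t) t

/-- the energy -/
def en (h g : ℝ) : ℝ := g ^ 2 + h ^ 2 - 4 * log h

lemma d_en {h g : ℝ → ℝ} {t : ℝ} (p : 0 < h t) (dh : HasDerivAt h (g t) t)
    (dg : HasDerivAt g (2 / h t - h t) t) : HasDerivAt (fun t => en (h t) (g t)) 0 t := by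
  have := ((dg.pow 2).add (dh.pow 2)).sub ((dh.log p.ne').const_mul 4)
  refine this.congr_deriv ?_
  field_simp
  ring

lemma exp_le_of_en {h g : ℝ} (p : 0 < h) : exp (-en h g / 4) ≤ h := by
  rw [← le_log_iff_exp_le p, en]
  nlinarith

/-- the cut off field -/
def fld (m : ℝ) (x : ℝ × ℝ) : ℝ × ℝ := (x.2, 2 / max x.1 m - x.1)

lemma lip_fld {m : ℝ} (hm : 0 < m) : LipschitzWith (Real.toNNReal (2 / m ^ 2 + 1)) (fld m) := by
  refine LipschitzWith.of_dist_le_mul fun x y => ?_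
  rw [Real.coe_toNNReal _ (by positivity), Prod.dist_eq, Prod.dist_eq]
  have d1 := le_max_left (dist x.1 y.1) (dist x.2 y.2)
  have d2 := le_max_right (dist x.1 y.1) (dist x.2 y.2)
  have d0 : 0 ≤ max (dist x.1 y.1) (dist x.2 y.2) := dist_nonneg.trans d1
  have k0 : 0 ≤ 2 / m ^ 2 * max (dist x.1 y.1) (dist x.2 y.2) := by positivity
  refine max_le (by simp only [fld]; linarith) ?_
  have a1 := le_max_right x.1 m
  have a2 := le_max_right y.1 m
  have a3 := abs_max_sub_max_le_abs x.1 y.1 m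
  have e : 2 / max x.1 m - 2 / max y.1 m =
      -(2 / (max x.1 m * max y.1 m) * (max x.1 m - max y.1 m)) := by
    field_simp [(hm.trans_le a1).ne', (hm.trans_le a2).ne']
    ring
  have i : |2 / max x.1 m - 2 / max y.1 m| ≤ 2 / m ^ 2 * max (dist x.1 y.1) (dist x.2 y.2) := by
    rw [e, abs_neg, abs_mul, abs_of_pos (div_pos two_pos (mul_pos (hm.trans_le a1) (hm.trans_le a2)))]
    refine mul_le_mul (div_le_div_of_nonneg_left two_pos.le (by positivity) ?_) (a3.trans d1)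
      (abs_nonneg _) (by positivity)
    rw [sq]
    exact mul_le_mul a1 a2 hm.le (hm.le.trans a1)
  have j := abs_sub (2 / max x.1 m - 2 / max y.1 m) (x.1 - y.1)
  replace d1 : |x.1 - y.1| ≤ _ := d1
  simp only [fld, Real.dist_eq (2 / _ - _)]
  rw [show 2 / max x.1 m - x.1 - (2 / max y.1 m - y.1) =
    2 / max x.1 m - 2 / max y.1 m - (x.1 - y.1) by ring]
  linarith

theorem exists_sol {h0 : ℝ} (p : 0 < h0) (g0 : ℝ) : ∃ h g, Sol h g ∧ h 0 = h0 ∧ g 0 = g0 := by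
  set m := exp (-en h0 g0 / 4) / 2 with hm
  have m0 : 0 < m := by positivity
  obtain ⟨S, -, s0, s1⟩ := R086.BFlow.exists_flow (X := Unit) (F := fun _ _ x => fld m x)
    ((lip_fld m0).continuous.comp (by fun_prop)) (fun _ _ => lip_fld m0) 0
    (x0 := fun _ => (h0, g0)) continuous_const
  set h : ℝ → ℝ := fun t => (S () t).1
  set g : ℝ → ℝ := fun t => (S () t).2
  have dh : ∀ t, HasDerivAt h (g t) t := fun t => (s1 () t).fst
  have dg : ∀ t, HasDerivAt g (2 / max (h t) m - h t) t := fun t => (s1 () t).snd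
  have ch : Continuous h := continuous_iff_continuousAt.2 fun t => (dh t).continuousAt
  have cg : Continuous g := continuous_iff_continuousAt.2 fun t => (dg t).continuousAt
  have e0 : h 0 = h0 := congrArg Prod.fst (s0 ())
  have e1 : g 0 = g0 := congrArg Prod.snd (s0 ())
  have key : IsClopen {t | 2 * m ≤ h t ∧ en (h t) (g t) = en h0 g0} := by
    constructor
    · refine isClosed_iff_frequently.2 fun t ht => ?_
      have l : 2 * m ≤ h t := ((isClosed_le continuous_const ch).closure_subset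
        (mem_closure_iff_frequently.2 (ht.mono fun s hs => hs.1)) :)
      have c : ContinuousAt (fun t => en (h t) (g t)) t :=
        ((cg.continuousAt.pow 2).add (ch.continuousAt.pow 2)).sub
          ((ch.continuousAt.log (by linarith)).const_mul 4)
      exact ⟨l, tendsto_nhds_unique_of_frequently_eq c tendsto_const_nhds (ht.mono fun s hs => hs.2)⟩
    · refine isOpen_iff_mem_nhds.2 fun t ht => ?_
      obtain ⟨ε, ε0, hε⟩ := Metric.eventually_nhds_iff_ball.1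
        (ch.continuousAt.eventually (lt_mem_nhds (show m < h t by linarith [ht.1])))
      have d : ∀ s ∈ Metric.ball t ε, HasDerivAt (fun t => en (h t) (g t)) 0 s := fun s hs =>
        d_en (m0.trans (hε s hs)) (dh s) (by simpa [max_eq_left (hε s hs).le] using dg s)
      filter_upwards [Metric.ball_mem_nhds t ε0] with s hs
      have k : en (h s) (g s) = en (h t) (g t) :=
        Metric.isOpen_ball.is_const_of_deriv_eq_zero (convex_ball t ε).isPreconnected
          (fun s hs => (d s hs).differentiableAt.differentiableWithinAt)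
          (fun s hs => (d s hs).deriv) hs (Metric.mem_ball_self ε0)
      have := exp_le_of_en (g := g s) (m0.trans (hε s hs))
      rw [k, ht.2] at this
      exact ⟨by linarith, k.trans ht.2⟩
  have all := key.eq_univ ⟨0, by
    have := exp_le_of_en (g := g0) p
    rw [mem_ofPred_eq, e0, e1]
    exact ⟨by linarith, rfl⟩⟩
  have l : ∀ t, 2 * m ≤ h t := fun t => (all.ge (mem_univ t)).1
  exact ⟨h, g, ⟨fun t => by linarith [l t], dh, fun t => by
    simpa [max_eq_left (show m ≤ h t by linarith [l t])] using dg t⟩, e0, e1⟩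

namespace Sol

variable {h g h' g' : ℝ → ℝ} (s : Sol h g)
include s

lemma ch : Continuous h := continuous_iff_continuousAt.2 fun t => (s.dh t).continuousAt


lemma energy (t t' : ℝ) : en (h t) (g t) = en (h t') (g t') :=
  is_const_of_deriv_eq_zero (fun t => (d_en (s.pos t) (s.dh t) (s.dg t)).differentiableAt)
    (fun t => (d_en (s.pos t) (s.dh t) (s.dg t)).deriv) t t'

lemma lb : ∃ m > 0, ∀ t, m ≤ h t :=
  ⟨exp (-en (h 0) (g 0) / 4), exp_pos _, fun t => s.energy t 0 ▸ exp_le_of_en (s.pos t)⟩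

lemma unique (s' : Sol h' g') {z : ℝ} (e1 : h z = h' z) (e2 : g z = g' z) (t : ℝ) :
    h t = h' t ∧ g t = g' t := by
  obtain ⟨m, m0, hm⟩ := s.lb
  obtain ⟨m', m0', hm'⟩ := s'.lb
  have k : ∀ {h g : ℝ → ℝ}, Sol h g → (∀ t, min m m' ≤ h t) → ∀ t,
      HasDerivAt (fun t => (h t, g t)) (fld (min m m') (h t, g t)) t := fun s l t => by
    simpa [fld, max_eq_left (l t)] using (s.dh t).prodMk (s.dg t)
  have := ODE_solution_unique_univ (v := fun _ => fld (min m m')) (s := fun _ => univ)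
    (fun _ => (lip_fld (lt_min m0 m0')).lipschitzOnWith)
    (fun t => ⟨k s (fun t => (min_le_left _ _).trans (hm t)) t, mem_univ _⟩)
    (fun t => ⟨k s' (fun t => (min_le_right _ _).trans (hm' t)) t, mem_univ _⟩)
    (t₀ := z) (Prod.ext e1 e2)
  exact Prod.ext_iff.1 (congrFun this t)

lemma shift (c : ℝ) : Sol (fun t => h (t + c)) fun t => g (t + c) :=
  ⟨fun _ => s.pos _, fun t => (s.dh _).comp_add_const t c, fun t => (s.dg _).comp_add_const t c⟩

lemma refl (c : ℝ) : Sol (fun t => h (c - t)) fun t => -g (c - t) :=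
  ⟨fun _ => s.pos _, fun t => (s.dh _).comp_const_sub c t, fun t =>
    ((s.dg _).comp_const_sub c t).neg.congr_deriv (neg_neg _)⟩

lemma const {z : ℝ} (e1 : h z = √2) (e2 : g z = 0) (t : ℝ) : h t = √2 ∧ g t = 0 :=
  s.unique (h' := fun _ => √2) (g' := fun _ => 0) ⟨fun _ => by positivity,
    fun t => hasDerivAt_const _ _, fun t => by
      refine (hasDerivAt_const t (0 : ℝ)).congr_deriv ?_
      rw [eq_comm, sub_eq_zero, div_eq_iff (by positivity), mul_self_sqrt two_pos.le]⟩ e1 e2 t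

lemma zeros (a : ℝ) : ∃ t ∈ Ioo a (a + π), h t = √2 := by
  obtain ⟨t, ht, e⟩ := sturm1 (u := fun t => h t - √2) (v := g) (q := fun t => (h t + √2) / h t)
    (fun t => (s.dh t).sub_const _) (fun t => by
      refine (s.dg t).congr_deriv ?_
      have := (s.pos t).ne'
      field_simp
      linear_combination -mul_self_sqrt (two_pos (α := ℝ)).le)
    (fun t => (one_lt_div (s.pos t)).2 (lt_add_of_pos_right _ (by positivity))) a
  exact ⟨t, ht, sub_eq_zero.1 e⟩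

lemma crit : (∃ z, g z = 0 ∧ √2 ≤ h z) ∧ ∃ z, g z = 0 ∧ h z ≤ √2 := by
  obtain ⟨a, ⟨a1, a2⟩, ha⟩ := s.zeros 0
  obtain ⟨b, ⟨b1, b2⟩, hb⟩ := s.zeros π
  obtain ⟨c, ⟨c1, c2⟩, hc⟩ := s.zeros (π + π)
  have ab : a < b := by linarith
  have bc : b < c := by linarith
  constructor
  · obtain ⟨z, hz, m⟩ := isCompact_Icc.exists_isMaxOn (nonempty_Icc.2 (ab.trans bc).le)
      s.ch.continuousOn
    have l : √2 ≤ h z := ha ▸ m (left_mem_Icc.2 (ab.trans bc).le)
    rcases l.eq_or_lt with e | e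
    · refine ⟨b, IsLocalMax.hasDerivAt_eq_zero ?_ (s.dh b), hb.ge⟩
      filter_upwards [Icc_mem_nhds ab bc] with t ht using (m ht).trans (by rw [hb, e])
    · refine ⟨z, (m.isLocalMax (Icc_mem_nhds (lt_of_le_of_ne hz.1 ?_)
        (lt_of_le_of_ne hz.2 ?_))).hasDerivAt_eq_zero (s.dh z), l⟩
      · rintro rfl; exact e.ne ha.symm
      · rintro rfl; exact e.ne hc.symm
  · obtain ⟨z, hz, m⟩ := isCompact_Icc.exists_isMinOn (nonempty_Icc.2 (ab.trans bc).le)
      s.ch.continuousOn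
    have l : h z ≤ √2 := ha ▸ m (left_mem_Icc.2 (ab.trans bc).le)
    rcases l.eq_or_lt with e | e
    · refine ⟨b, IsLocalMin.hasDerivAt_eq_zero ?_ (s.dh b), hb.le⟩
      filter_upwards [Icc_mem_nhds ab bc] with t ht using le_trans (by rw [hb, e]) (m ht)
    · refine ⟨z, (m.isLocalMin (Icc_mem_nhds (lt_of_le_of_ne hz.1 ?_)
        (lt_of_le_of_ne hz.2 ?_))).hasDerivAt_eq_zero (s.dh z), l⟩
      · rintro rfl; exact e.ne ha
      · rintro rfl; exact e.ne hc

omit s in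
lemma d_psi {x : ℝ} (p : 0 < x) : HasDerivAt (fun x => en x 0) (2 * x - 4 / x) x := by
  have := ((hasDerivAt_const x ((0 : ℝ) ^ 2)).add ((hasDerivAt_id x).pow 2)).sub
    ((hasDerivAt_log p.ne').const_mul 4)
  refine this.congr_deriv ?_
  simp [div_eq_mul_inv]

lemma extr : (∃ z, ∀ t, h t ≤ h z) ∧ ∃ z, ∀ t, h z ≤ h t := by
  obtain ⟨⟨z, z1, z2⟩, w, w1, w2⟩ := s.crit
  have r0 : (0 : ℝ) < √2 := by positivity
  have r2 := mul_self_sqrt (two_pos (α := ℝ)).le
  have l : ∀ t z, g z = 0 → en (h t) 0 ≤ en (h z) 0 := fun t z e => by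
    rw [← e, ← s.energy t z, e]
    simp only [en]
    nlinarith
  refine ⟨⟨z, fun t => le_of_not_gt fun k => ?_⟩, w, fun t => le_of_not_gt fun k => ?_⟩
  · refine (l t z z1).not_gt (strictMonoOn_of_deriv_pos (convex_Ici √2) (f := fun x => en x 0)
      (fun x hx => (d_psi (r0.trans_le hx)).continuousAt.continuousWithinAt) (fun x hx => ?_)
      z2 (z2.trans k.le) k)
    rw [interior_Ici] at hx
    have x0 : 0 < x := r0.trans hx
    rw [(d_psi x0).deriv, sub_pos, div_lt_iff₀ x0]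
    nlinarith [mul_self_lt_mul_self r0.le hx]
  · refine (l t w w1).not_gt (strictAntiOn_of_deriv_neg (convex_Ioc 0 √2) (f := fun x => en x 0)
      (fun x hx => (d_psi hx.1).continuousAt.continuousWithinAt) (fun x hx => ?_)
      ⟨s.pos t, k.le.trans w2⟩ ⟨s.pos w, w2⟩ k)
    rw [interior_Ioc] at hx
    rw [(d_psi hx.1).deriv, sub_neg, lt_div_iff₀ hx.1]
    nlinarith [mul_self_lt_mul_self hx.1.le hx.2]

/-- the curve with support function `h` meets itself after one turn round the origin -/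
theorem cross : ∃ t t', π < t' - t ∧ t' - t < 3 * π ∧
    h t' * cos t' - g t' * sin t' = h t * cos t - g t * sin t ∧
    h t' * sin t' + g t' * cos t' = h t * sin t + g t * cos t := by
  set α : ℝ → ℝ := fun t => t + arctan (g t / h t) with hα
  have d : ∀ t, HasDerivAt α (2 / (h t ^ 2 + g t ^ 2)) t := fun t => by
    have := (hasDerivAt_id t).add ((s.dg t).div (s.dh t) (s.pos t).ne').arctan
    refine this.congr_deriv ?_
    have := s.pos t
    simp only [Pi.div_apply]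
    field_simp
    ring
  have ca : Continuous α := continuous_iff_continuousAt.2 fun t => (d t).continuousAt
  have ma : StrictMono α := strictMono_of_deriv_pos fun t => by
    have := s.pos t
    rw [(d t).deriv]
    positivity
  have b1 : ∀ t, t - π / 2 < α t ∧ α t < t + π / 2 := fun t =>
    ⟨by linarith [neg_pi_div_two_lt_arctan (g t / h t)],
      by linarith [arctan_lt_pi_div_two (g t / h t)]⟩
  have sa : Function.Surjective α := ca.surjective
    (tendsto_atTop_mono (fun t => (b1 t).1.le) (tendsto_atTop_add_const_right _ _ tendsto_id))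
    (tendsto_atBot_mono (fun t => (b1 t).2.le) (tendsto_atBot_add_const_right _ _ tendsto_id))
  set I := ma.orderIsoOfSurjective α sa
  set σ : ℝ → ℝ := fun t => I.symm (α t + 2 * π)
  have cσ : Continuous σ := I.symm.continuous.comp (ca.add continuous_const)
  have eσ : ∀ t, α (σ t) = α t + 2 * π := fun t => I.apply_symm_apply _
  obtain ⟨⟨z, hz⟩, w, hw⟩ := s.extr
  obtain ⟨t, e⟩ := intermediate_value_univ₂ (s.ch.comp cσ) s.ch (hz (σ z)) (hw (σ w))
  replace e : h (σ t) = h t := e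
  have e2 : g (σ t) ^ 2 = g t ^ 2 := by
    have := s.energy (σ t) t
    simp only [en, e] at this
    linarith
  have pol : ∀ t, h t * cos t - g t * sin t = h t * √(1 + (g t / h t) ^ 2) * cos (α t) ∧
      h t * sin t + g t * cos t = h t * √(1 + (g t / h t) ^ 2) * sin (α t) := fun t => by
    have p := (s.pos t).ne'
    have q : √(1 + (g t / h t) ^ 2) ≠ 0 := by positivity
    simp only [hα, cos_add, sin_add, cos_arctan, sin_arctan]
    constructor <;> field_simp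
  refine ⟨t, σ t, by linarith [eσ t, b1 t, b1 (σ t)], by linarith [eσ t, b1 t, b1 (σ t)], ?_, ?_⟩
  · rw [(pol _).1, (pol _).1, eσ, cos_add_two_pi, div_pow, div_pow, e, e2]
  · rw [(pol _).2, (pol _).2, eσ, sin_add_two_pi, div_pow, div_pow, e, e2]

/-- `2π`-periodic solutions are constant -/
theorem per {t0 : ℝ} (e1 : h (t0 + 2 * π) = h t0) (e2 : g (t0 + 2 * π) = g t0) (t : ℝ) :
    h t = √2 ∧ g t = 0 := by
  have p := (s.shift (2 * π)).unique s e1 e2
  obtain ⟨⟨z, z1, -⟩, -⟩ := s.crit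
  have r := (s.refl (2 * z)).unique s (z := z) (by ring_nf) (by
    rw [show 2 * z - z = z by ring, z1, neg_zero])
  have z2 : g (z + π) = 0 := by
    have a1 := (r (z + π)).2
    have a2 := (p (z - π)).2
    rw [show 2 * z - (z + π) = z - π by ring] at a1
    rw [show z - π + 2 * π = z + π by ring] at a2
    linarith
  obtain ⟨w, ⟨w1, w2⟩, w3⟩ := sturm1 (u := g) (v := fun t => 2 / h t - h t)
    (q := fun t => 1 + 2 / h t ^ 2) s.dg (fun t => by
      refine ((((s.dh t).inv (s.pos t).ne').const_mul 2).sub (s.dh t)).congr_deriv ?_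
      ring) (fun t => lt_add_of_pos_right _ (by have := s.pos t; positivity)) z
  have k : ∀ a b, a < b → b ≤ a + π / 2 → g a = 0 → g b = 0 → h t = √2 ∧ g t = 0 := by
    intro a b ab l ga gb
    have v := sturm2 (u := fun t => h t * g t) (v := fun t => g t ^ 2 + 2 - h t ^ 2)
      (q := fun t => 4 - 4 / h t ^ 2) (fun t => by
        refine ((s.dh t).mul (s.dg t)).congr_deriv ?_
        have := (s.pos t).ne'
        field_simp
        ring) (fun t => by
        refine ((((s.dg t).pow 2).add_const 2).sub ((s.dh t).pow 2)).congr_deriv ?_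
        have := (s.pos t).ne'
        field_simp
        ring) (fun t => sub_lt_self _ (by have := s.pos t; positivity)) l (by simp [ga])
      (by simp [gb])
    have g0 : ∀ x ∈ Ioo a b, g x = 0 := fun x hx =>
      (mul_eq_zero.1 (v x hx)).resolve_left (s.pos x).ne'
    have m : (a + b) / 2 ∈ Ioo a b := ⟨by linarith, by linarith⟩
    have d0 : HasDerivAt g 0 ((a + b) / 2) := (hasDerivAt_const _ (0 : ℝ)).congr_of_eventuallyEq
      (by filter_upwards [Ioo_mem_nhds m.1 m.2] with x hx using g0 x hx)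
    have e := (s.dg _).unique d0
    have p0 := s.pos ((a + b) / 2)
    rw [sub_eq_zero, div_eq_iff p0.ne'] at e
    exact s.const (by rw [← sqrt_mul_self p0.le, ← e]) (g0 _ m) t
  rcases le_total w (z + π / 2) with l | l
  · exact k z w w1 l z1 w3
  · exact k w (z + π) w2 (by linarith) w3 z2

end Sol

end Crest.Agent.N250.Ode
end
end

-- ▼ part N250/E/Cls
section

/-!
Row 250, block E (helper85): a shrinker which is invariant under the translations along a unit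
vector `y` is empty, a plane or the round cylinder with axis `ℝ y`.
-/

set_option autoImplicit false

open Set Filter Topology Real
open scoped ContDiff InnerProductSpace
open Crest.GeometryTopology.MCF

noncomputable section

namespace Crest.Agent.N250.Cls

/-- cross product with `y` -/
def J (y : E) : E →L[ℝ] E := LinearMap.toContinuousLinearMap
  { toFun := fun v => !₂[y 1 * v 2 - y 2 * v 1, y 2 * v 0 - y 0 * v 2, y 0 * v 1 - y 1 * v 0]
    map_add' := fun a b => by ext i; fin_cases i <;> simp <;> ring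
    map_smul' := fun c a => by ext i; fin_cases i <;> simp <;> ring }

lemma J0 (y v : E) : J y v 0 = y 1 * v 2 - y 2 * v 1 := rfl
lemma J1 (y v : E) : J y v 1 = y 2 * v 0 - y 0 * v 2 := rfl
lemma J2 (y v : E) : J y v 2 = y 0 * v 1 - y 1 * v 0 := rfl

lemma in3 (a b : E) : ⟪a, b⟫_ℝ = a 0 * b 0 + a 1 * b 1 + a 2 * b 2 := by
  simp [PiLp.inner_apply, Fin.sum_univ_three, mul_comm]

lemma ext3 {a b : E} (h0 : a 0 = b 0) (h1 : a 1 = b 1) (h2 : a 2 = b 2) : a = b := by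
  ext i; fin_cases i <;> assumption

lemma y_J (y v : E) : ⟪y, J y v⟫_ℝ = 0 := by rw [in3, J0, J1, J2]; ring

lemma self_J (y v : E) : ⟪v, J y v⟫_ℝ = 0 := by rw [in3, J0, J1, J2]; ring

lemma J_J0 (y v : E) : J y (J y v) = ⟪y, v⟫_ℝ • y - ⟪y, y⟫_ℝ • v := by
  apply ext3 <;> simp only [J0, J1, J2, in3, PiLp.sub_apply, PiLp.smul_apply, smul_eq_mul] <;> ring

lemma JJ0 (y v : E) : ⟪J y v, J y v⟫_ℝ = ⟪y, y⟫_ℝ * ⟪v, v⟫_ℝ - ⟪y, v⟫_ℝ ^ 2 := by
  simp only [J0, J1, J2, in3]; ring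

lemma expand0 (a b v : E) : ⟪J a b, v⟫_ℝ • J a b =
    (⟪a, a⟫_ℝ * ⟪b, b⟫_ℝ - ⟪a, b⟫_ℝ ^ 2) • v - (⟪b, b⟫_ℝ * ⟪a, v⟫_ℝ) • a - (⟪a, a⟫_ℝ * ⟪b, v⟫_ℝ) • b +
      ⟪a, b⟫_ℝ • (⟪b, v⟫_ℝ • a + ⟪a, v⟫_ℝ • b) := by
  apply ext3 <;>
    simp only [J0, J1, J2, in3, PiLp.sub_apply, PiLp.add_apply, PiLp.smul_apply, smul_eq_mul] <;> ring

/-- `y, N` are orthonormal -/
structure Fr (y N : E) : Prop where
  yy : ⟪y, y⟫_ℝ = 1
  nn : ⟪N, N⟫_ℝ = 1
  yn : ⟪y, N⟫_ℝ = 0

namespace Fr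

variable {y N : E} (f : Fr y N)
include f

lemma ny : ⟪N, y⟫_ℝ = 0 := by rw [real_inner_comm, f.yn]

lemma jj : ⟪J y N, J y N⟫_ℝ = 1 := by rw [JJ0, f.yy, f.nn, f.yn]; ring

lemma J_J : J y (J y N) = -N := by rw [J_J0, f.yy, f.yn]; simp

lemma expand (v : E) : v = ⟪y, v⟫_ℝ • y + ⟪N, v⟫_ℝ • N + ⟪J y N, v⟫_ℝ • J y N := by
  rw [expand0, f.yy, f.nn, f.yn]; simp

lemma trace (T : E →L[ℝ] E) :
    ∑ a, ⟪ee a, T (ee a)⟫_ℝ = ⟪y, T y⟫_ℝ + ⟪N, T N⟫_ℝ + ⟪J y N, T (J y N)⟫_ℝ := by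
  have e : ∀ a, T (ee a) = y a • T y + N a • T N + J y N a • T (J y N) := fun a => by
    conv_lhs => rw [f.expand (ee a)]
    simp [EuclideanSpace.inner_single_right]
  simp only [e, EuclideanSpace.inner_single_left, Fin.sum_univ_three, in3 y, in3 N, in3 (J y N),
    PiLp.add_apply, PiLp.smul_apply, smul_eq_mul, map_one, one_mul]
  ring

/-- the rotating unit vector -/
lemma rot (t : ℝ) : Fr y (cos t • N + sin t • J y N) := by
  refine ⟨f.yy, ?_, ?_⟩
  · simp only [inner_add_left, inner_add_right, real_inner_smul_left, real_inner_smul_right, f.nn,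
      f.jj, self_J, real_inner_comm N (J y N)]
    nlinarith [sin_sq_add_cos_sq t]
  · simp only [inner_add_right, real_inner_smul_right, f.yn, y_J]; ring

lemma J_rot (t : ℝ) : J y (cos t • N + sin t • J y N) = (-sin t) • N + cos t • J y N := by
  rw [map_add, map_smul, map_smul, f.J_J]; module

end Fr

/-- shrinkers invariant under the translations along `y` -/
structure Cy (S : Set E) (n : E → E) (y : E) : Prop extends Hs S n where
  yy : ⟪y, y⟫_ℝ = 1
  tr : ∀ x ∈ S, ∃ L : E →L[ℝ] E, HasFDerivWithinAt n L S x ∧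
    ∑ a, ⟪ee a, L (ee a - ⟪n x, ee a⟫_ℝ • n x)⟫_ℝ = ⟪x, n x⟫_ℝ / 2
  inv : ∀ x ∈ S, ∀ t : ℝ, x + t • y ∈ S

/-- the planar system `X' = J e`, `e' = ⟨X, e⟩ / 2 • J e` -/
def V (y : E) (z : E × E) : E × E := (J y z.2, (⟪z.1, z.2⟫_ℝ / 2) • J y z.2)

lemma cd_V (y : E) : ContDiff ℝ 1 (V y) :=
  ((J y).contDiff.comp contDiff_snd).prodMk
    (((contDiff_fst.inner ℝ contDiff_snd).div_const 2).smul ((J y).contDiff.comp contDiff_snd))

namespace Cy

variable {S : Set E} {n : E → E} {y : E} (s : Cy S n y)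
include s

lemma fr {x : E} (hx : x ∈ S) : Fr y (n x) :=
  ⟨s.yy, s.toHs.unit hx, by rw [real_inner_comm]; exact s.toHs.perp_line (s.inv x hx)⟩

lemma neg : Cy S (fun x => -n x) y := by
  refine ⟨s.toHs.neg, s.yy, fun x hx => ?_, s.inv⟩
  obtain ⟨L, h1, h2⟩ := s.tr x hx
  refine ⟨-L, h1.neg, ?_⟩
  simp only [neg_apply, inner_neg_right, inner_neg_left, neg_smul, smul_neg,
    neg_neg, Finset.sum_neg_distrib, h2]
  ring

lemma d_perp {L : E →L[ℝ] E} {c : ℝ → E} {v : E} {t : ℝ} (hL : HasFDerivWithinAt n L S (c t))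
    (hc : HasDerivAt c v t) (hS : ∀ᶠ u in 𝓝 t, c u ∈ S) :
    ⟪y, L v⟫_ℝ = 0 ∧ ⟪n (c t), L v⟫_ℝ = 0 := by
  have d := hL.comp_hasDerivAt t hc hS
  constructor
  · have d1 := (hasDerivAt_const t y).inner ℝ d
    have z : (fun u => ⟪y, (n ∘ c) u⟫_ℝ) =ᶠ[𝓝 t] fun _ => 0 := hS.mono fun u hu => (s.fr hu).yn
    simpa using d1.unique ((hasDerivAt_const t (0 : ℝ)).congr_of_eventuallyEq z)
  · have d1 := d.inner ℝ d
    have z : (fun u => ⟪(n ∘ c) u, (n ∘ c) u⟫_ℝ) =ᶠ[𝓝 t] fun _ => 1 :=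
      hS.mono fun u hu => (s.fr hu).nn
    have := d1.unique ((hasDerivAt_const t (1 : ℝ)).congr_of_eventuallyEq z)
    rw [real_inner_comm ((n ∘ c) t) (L v)] at this
    simp only [Function.comp] at this
    linarith

/-- local solutions of the planar system on the surface -/
lemma loc_sol {x : E} (hx : x ∈ S) : ∃ c : ℝ → E, c 0 = x ∧ ∀ᶠ u in 𝓝 (0 : ℝ), c u ∈ S ∧
    HasDerivAt (fun u => (c u, n (c u))) (V y (c u, n (c u))) u := by
  obtain ⟨c, c0, hc⟩ := s.toHs.flow (T := J y) (J y).contDiff (fun v _ => self_J y v) hx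
  refine ⟨c, c0, ?_⟩
  filter_upwards [hc.eventually_nhds] with u hu
  obtain ⟨uS, du⟩ := hu.self_of_nhds
  have hS := hu.mono fun _ h => h.1
  obtain ⟨L, h1, h2⟩ := s.tr _ uS
  have f := s.fr uS
  refine ⟨uS, du.prodMk ((h1.comp_hasDerivAt u du hS).congr_deriv ?_)⟩
  obtain ⟨a1, a2⟩ := s.d_perp h1 du hS
  have dl : HasDerivAt (fun w : ℝ => c u + w • y) y 0 := by
    simpa using ((hasDerivAt_id (0 : ℝ)).smul_const y).const_add (c u)
  have a3 := (s.d_perp (c := fun w : ℝ => c u + w • y) (L := L) (by simpa using h1) dl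
    (Eventually.of_forall (s.inv _ uS))).1
  have t := f.trace (L.comp (ContinuousLinearMap.id ℝ E - (innerSL ℝ (n (c u))).smulRight (n (c u))))
  simp only [ContinuousLinearMap.comp_apply, sub_apply,
    ContinuousLinearMap.id_apply, ContinuousLinearMap.smulRight_apply, innerSL_apply_apply, h2,
    f.ny, f.nn, self_J, zero_smul, one_smul, sub_zero, sub_self, map_zero, inner_zero_right, a3,
    zero_add] at t
  rw [f.expand (L _), a1, a2, ← t]
  simp

/-- solutions of the time changed system stay on the surface -/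
lemma prop {Z : ℝ → E × E} {μ : ℝ → ℝ} (hμ : Continuous μ)
    (hZ : ∀ t, HasDerivAt Z (μ t • V y (Z t)) t) (h0 : (Z 0).1 ∈ S ∧ (Z 0).2 = n (Z 0).1) (t : ℝ) :
    (Z t).1 ∈ S ∧ (Z t).2 = n (Z t).1 := by
  have cZ : Continuous Z := continuous_iff_continuousAt.2 fun t => (hZ t).continuousAt
  have : IsClopen {t : ℝ | (Z t).1 ∈ S ∧ (Z t).2 = n (Z t).1} := by
    constructor
    · have c1 : IsClosed {t : ℝ | (Z t).1 ∈ S} := s.closed.preimage cZ.fst
      exact c1.isClosed_eq cZ.snd.continuousOn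
        (s.toHs.cont.comp cZ.fst.continuousOn fun t ht => ht)
    · refine isOpen_iff_mem_nhds.2 fun t0 ht => ?_
      obtain ⟨c, c0, hc⟩ := s.loc_sol ht.1
      obtain ⟨K, U, hU, hK⟩ := ((cd_V y).contDiffAt (x := Z t0)).exists_lipschitzOnWith
      set σ : ℝ → ℝ := fun t => ∫ u in t0..t, μ u with hσ
      have dσ : ∀ t, HasDerivAt σ (μ t) t := fun t => (hμ.integral_hasStrictDerivAt t0 t).hasDerivAt
      have σ0 : σ t0 = 0 := by simp [hσ]
      have tσ : Tendsto σ (𝓝 t0) (𝓝 0) := σ0 ▸ (dσ t0).continuousAt.tendsto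
      set W : ℝ → E × E := fun t => (c (σ t), n (c (σ t))) with hW
      have dW : ∀ᶠ t in 𝓝 t0, c (σ t) ∈ S ∧ HasDerivAt W (μ t • V y (W t)) t :=
        (tσ.eventually hc).mono fun t h => ⟨h.1, h.2.scomp t (dσ t)⟩
      have W0 : W t0 = Z t0 := by
        simp only [hW, σ0, c0]
        exact Prod.ext rfl ht.2.symm
      have b : ∀ᶠ t in 𝓝 t0, ‖μ t‖₊ ≤ ‖μ t0‖₊ + 1 :=
        (hμ.nnnorm.tendsto t0).eventually (eventually_le_nhds (lt_add_one _))
      have u : Z =ᶠ[𝓝 t0] W := by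
        refine ODE_solution_unique_of_eventually (v := fun t z => μ t • V y z) (s := fun _ => U)
          (K := (‖μ t0‖₊ + 1) * K) (b.mono fun t h => ?_) ?_ ?_ W0.symm
        · exact ((lipschitzWith_smul (μ t)).lipschitzOnWith (s := univ) |>.comp hK
            (mapsTo_univ _ _)).weaken (by gcongr)
        · filter_upwards [cZ.continuousAt.preimage_mem_nhds hU] with t h using ⟨hZ t, h⟩
        · filter_upwards [dW, dW.self_of_nhds.2.continuousAt.preimage_mem_nhds (W0 ▸ hU)]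
            with t h1 h2 using ⟨h1.2, h2⟩
      filter_upwards [u, dW] with t h1 h2
      rw [h1]
      exact ⟨h2.1, rfl⟩
  have u := this.eq_univ ⟨0, h0⟩
  exact (u ▸ mem_univ t : t ∈ {t : ℝ | (Z t).1 ∈ S ∧ (Z t).2 = n (Z t).1})

/-- a point with vanishing support function lies on a plane contained in the surface -/
lemma plane {p : E} (hp : p ∈ S) (h0 : ⟪p, n p⟫_ℝ = 0) {x : E} (hx : ⟪x, n p⟫_ℝ = 0) : x ∈ S := by
  have f := s.fr hp
  have k := fun t => (s.prop (Z := fun t => (p + t • J y (n p), n p)) (μ := fun _ => 1)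
    continuous_const (fun t => by
      refine ((((hasDerivAt_id t).smul_const (J y (n p))).const_add p).prodMk
        (hasDerivAt_const t (n p))).congr_deriv ?_
      simp [V, inner_add_left, real_inner_smul_left, h0, real_inner_comm (n p) (J y (n p)), self_J])
    (by simpa using hp) t).1
  have e : x = p + ⟪J y (n p), x - p⟫_ℝ • J y (n p) + ⟪y, x - p⟫_ℝ • y := by
    have := f.expand (x - p)
    rw [inner_sub_right (n p), real_inner_comm x, real_inner_comm p (n p), hx, h0] at this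
    rw [← sub_add_cancel x p]
    conv_lhs => rw [this]
    simp only [sub_add_cancel]
    module
  rw [e]
  exact s.inv _ (k _) _

/-- a point with positive support function lies on a round circle contained in the surface -/
lemma circle {p : E} (hp : p ∈ S) (h0 : 0 < ⟪p, n p⟫_ℝ) :
    p = ⟪y, p⟫_ℝ • y + √2 • n p ∧
      ∀ t, ⟪y, p⟫_ℝ • y + √2 • (cos t • n p + sin t • J y (n p)) ∈ S := by
  have f := s.fr hp
  obtain ⟨h, g, o, e1, e2⟩ := Ode.exists_sol h0 ⟪J y (n p), p⟫_ℝ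
  set N := n p with hN
  set e : ℝ → E := fun t => cos t • N + sin t • J y N with he
  have de : ∀ t, HasDerivAt e (J y (e t)) t := fun t => by
    refine (((hasDerivAt_cos t).smul_const N).add ((hasDerivAt_sin t).smul_const _)).congr_deriv ?_
    rw [he, f.J_rot]
  have dJ : ∀ t, HasDerivAt (fun t => J y (e t)) (-e t) t := fun t =>
    ((J y).hasFDerivAt.comp_hasDerivAt t (de t)).congr_deriv (f.rot t).J_J
  set X : ℝ → E := fun t => ⟪y, p⟫_ℝ • y + h t • e t + g t • J y (e t) with hX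
  have Xe : ∀ t, ⟪X t, e t⟫_ℝ = h t := fun t => by
    have r : Fr y (e t) := f.rot t
    simp only [hX, inner_add_left, real_inner_smul_left, r.yn, r.nn,
      real_inner_comm (e t) (J y (e t)), self_J]
    ring
  have XJ : ∀ t, ⟪X t, J y (e t)⟫_ℝ = g t := fun t => by
    have r : Fr y (e t) := f.rot t
    simp only [hX, inner_add_left, real_inner_smul_left, r.jj, self_J, y_J]
    ring
  have e0 : e 0 = N := by simp [he]
  have X0 : X 0 = p := by
    rw [hX]
    simp only [e0, e1, e2]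
    rw [real_inner_comm N p]
    exact (f.expand p).symm
  have k := s.prop (Z := fun t => (X t, e t)) (μ := fun t => 2 / h t)
    (continuous_const.div o.ch fun t => (o.pos t).ne') (fun t => by
      refine ((((o.dh t).smul (de t)).const_add _ |>.add ((o.dg t).smul (dJ t))).prodMk
        (de t)).congr_deriv ?_
      have := (o.pos t).ne'
      simp only [V, Xe, Prod.smul_mk, smul_smul]
      refine Prod.ext ?_ ?_
      · simp only; module
      · simp only; rw [show 2 / h t * (h t / 2) = 1 by field_simp, one_smul])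
    (by simp only [X0, e0]; exact ⟨hp, rfl⟩)
  simp only at k
  obtain ⟨t, t', l1, l2, c1, c2⟩ := o.cross
  have Xr : ∀ t, X t = ⟪y, p⟫_ℝ • y + (h t * cos t - g t * sin t) • N +
      (h t * sin t + g t * cos t) • J y N := fun t => by
    simp only [hX, he, f.J_rot]; module
  have XX : X t' = X t := by rw [Xr, Xr, c1, c2]
  have ee' : e t' = e t := by rw [(k t').2, (k t).2, XX]
  have cc : cos t' = cos t := by
    have := congrArg (fun v => ⟪N, v⟫_ℝ) ee'
    simpa only [he, inner_add_right, real_inner_smul_right, f.nn, self_J, mul_one, mul_zero,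
      add_zero] using this
  have ss : sin t' = sin t := by
    have := congrArg (fun v => ⟪J y N, v⟫_ℝ) ee'
    simpa only [he, inner_add_right, real_inner_smul_right, f.jj, real_inner_comm N (J y N), self_J,
      mul_one, mul_zero, zero_add] using this
  have tt : t' = t + 2 * π := by
    have c : cos (t' - t - 2 * π) = 1 := by
      rw [cos_sub_two_pi, cos_sub, cc, ss]; nlinarith [sin_sq_add_cos_sq t]
    have := (cos_eq_one_iff_of_lt_of_lt (by linarith [pi_pos]) (by linarith [pi_pos])).1 c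
    linarith
  have pr := o.per (t0 := t) (by rw [← tt, ← Xe, ← Xe, XX, ee']) (by rw [← tt, ← XJ, ← XJ, XX, ee'])
  have Xc : ∀ t, X t = ⟪y, p⟫_ℝ • y + √2 • e t := fun t => by
    simp only [hX, (pr t).1, (pr t).2, zero_smul, add_zero]
  exact ⟨by rw [← e0, ← Xc, X0], fun t => Xc t ▸ (k t).1⟩

lemma cyl {p : E} (hp : p ∈ S) (h0 : 0 < ⟪p, n p⟫_ℝ) :
    ‖p‖ ^ 2 - ⟪p, y⟫_ℝ ^ 2 = 2 ∧ ∀ x, ‖x‖ ^ 2 - ⟪x, y⟫_ℝ ^ 2 = 2 → x ∈ S := by
  have f := s.fr hp
  obtain ⟨h1, h2⟩ := s.circle hp h0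
  have r2 : √2 * √2 = 2 := mul_self_sqrt (by norm_num)
  have r0 : (0 : ℝ) < √2 := by positivity
  constructor
  · rw [← real_inner_self_eq_norm_sq, h1]
    simp only [inner_add_left, inner_add_right, real_inner_smul_left, real_inner_smul_right, f.yy,
      f.nn, f.yn, f.ny]
    linear_combination r2
  · intro x hx
    have e := f.expand x
    set a := ⟪n p, x⟫_ℝ
    set b := ⟪J y (n p), x⟫_ℝ
    have ab : a ^ 2 + b ^ 2 = 2 := by
      rw [← real_inner_self_eq_norm_sq, real_inner_comm y x] at hx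
      have : ⟪x, x⟫_ℝ = ⟪y, x⟫_ℝ ^ 2 + a ^ 2 + b ^ 2 := by
        have := congrArg (fun v => ⟪v, x⟫_ℝ) e
        simp only [inner_add_left, real_inner_smul_left] at this
        rw [this]
        ring
      linarith
    have nz : ‖(⟨a, b⟩ : ℂ)‖ = √2 := by
      rw [Complex.norm_def, Complex.normSq_mk, ← ab]; congr 1; ring
    have z0 : (⟨a, b⟩ : ℂ) ≠ 0 := norm_pos_iff.1 (nz ▸ r0)
    have c := Complex.cos_arg z0
    have sn := Complex.sin_arg (⟨a, b⟩ : ℂ)
    rw [nz] at c sn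
    have m := s.inv _ (h2 (Complex.arg ⟨a, b⟩)) (⟪y, x⟫_ℝ - ⟪y, p⟫_ℝ)
    rw [c, sn] at m
    convert m using 1
    conv_lhs => rw [e]
    simp only [smul_add, smul_smul]
    rw [mul_div_cancel₀ _ r0.ne', mul_div_cancel₀ _ r0.ne']
    module

lemma cyl' {p : E} (hp : p ∈ S) (h0 : ⟪p, n p⟫_ℝ ≠ 0) :
    ‖p‖ ^ 2 - ⟪p, y⟫_ℝ ^ 2 = 2 ∧ ∀ x, ‖x‖ ^ 2 - ⟪x, y⟫_ℝ ^ 2 = 2 → x ∈ S := by
  rcases h0.lt_or_gt with h | h
  · exact s.neg.cyl hp (by rw [inner_neg_right]; linarith)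
  · exact s.cyl hp h

/-- classification -/
theorem cls : S = ∅ ∨ (∃ w : E, ‖w‖ = 1 ∧ ⟪w, y⟫_ℝ = 0 ∧ S = {x | ⟪x, w⟫_ℝ = 0}) ∨
    S = {x | ‖x‖ ^ 2 - ⟪x, y⟫_ℝ ^ 2 = 2} := by
  rcases S.eq_empty_or_nonempty with h | ⟨p0, hp0⟩
  · exact Or.inl h
  right
  by_cases hp : ∃ p ∈ S, ⟪p, n p⟫_ℝ = 0
  · obtain ⟨p, hp, h0⟩ := hp
    have f := s.fr hp
    have pl := fun x => s.plane hp h0 (x := x)
    refine Or.inl ⟨n p, ?_, f.ny, Subset.antisymm (fun q hq => ?_) pl⟩
    · have := f.nn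
      rw [real_inner_self_eq_norm_sq] at this
      exact (sq_eq_sq₀ (norm_nonneg _) zero_le_one).1 (by rw [this, one_pow])
    -- on the plane the normal is a multiple of `n p`
    have key : ∀ x, ⟪x, n p⟫_ℝ = 0 → n x = ⟪n p, n x⟫_ℝ • n p := fun x hx => by
      have a := (s.fr (pl x hx)).yn
      have b : ⟪n x, J y (n p)⟫_ℝ = 0 := s.toHs.perp_line fun u => pl _ (by
        rw [inner_add_left, real_inner_smul_left, real_inner_comm (n p) (J _ _), self_J, hx]; simp)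
      have e := f.expand (n x)
      rwa [a, real_inner_comm (n x) (J _ _), b, zero_smul, zero_smul, zero_add, add_zero] at e
    have ne : ∀ x, ⟪x, n p⟫_ℝ = 0 → ⟪n p, n x⟫_ℝ ≠ 0 := fun x hx h => by
      have := (s.fr (pl x hx)).nn
      rw [key x hx, h] at this
      simp at this
    by_cases h1 : ⟪q, n q⟫_ℝ = 0
    · have a : ⟪n 0, q⟫_ℝ = 0 := s.toHs.perp_line fun u => s.plane hq h1 (by
        rw [zero_add, real_inner_smul_left, h1, mul_zero])
      rw [key 0 (inner_zero_left _), real_inner_smul_left] at a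
      rw [mem_ofPred_eq, real_inner_comm]
      exact (mul_eq_zero.1 a).resolve_left (ne 0 (inner_zero_left _))
    · exfalso
      have cy := (s.cyl' hq h1).2
      have r2 : √2 * √2 = 2 := mul_self_sqrt (by norm_num)
      have r0 : (0 : ℝ) < √2 := by positivity
      have d : HasDerivAt (fun t => √2 • (cos t • n p + sin t • J y (n p)))
          (√2 • (-sin (π / 2) • n p + cos (π / 2) • J y (n p))) (π / 2) :=
        (((hasDerivAt_cos _).smul_const _).add ((hasDerivAt_sin _).smul_const _)).const_smul √2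
      have a := s.toHs.perp d (Eventually.of_forall fun t => cy _ (by
        rw [← real_inner_self_eq_norm_sq]
        simp only [real_inner_smul_left, real_inner_smul_right, (f.rot t).nn, (f.rot t).ny]
        linear_combination r2))
      simp only [sin_pi_div_two, cos_pi_div_two, zero_smul, one_smul, zero_add, add_zero, neg_smul,
        real_inner_smul_right, inner_neg_right] at a
      refine ne (√2 • J y (n p)) ?_ ?_
      · rw [real_inner_smul_left, real_inner_comm, self_J, mul_zero]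
      · rw [real_inner_comm]
        simpa [r0.ne'] using a
  · push Not at hp
    exact Or.inr (Subset.antisymm (fun q hq => (s.cyl' hq (hp q hq)).1) (s.cyl' hp0 (hp p0 hp0)).2)

end Cy

/-- the data of `Cy` for a shrinker in the sense of `Mv.IsShr` -/
theorem cy_of {F : Mv} (h : F.IsShr) {y : E} (hy : ‖y‖ = 1)
    (hi : ∀ x ∈ F.sl 0, ∀ t : ℝ, x + t • y ∈ F.sl 0) : Cy (F.sl 0) (fun x => F.n (x, 0)) y := by
  refine ⟨hs_of h.reg h.closed 0, by rw [real_inner_self_eq_norm_sq, hy, one_pow], fun x hx => ?_, hi⟩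
  obtain ⟨ν, h1, h2, h3⟩ := (hs_of h.reg h.closed 0).ext hx
  have cf : ContinuousWithinAt (Prod.fst : ST → E) F.M (x, 0) := continuous_fst.continuousWithinAt
  have t1 : Tendsto (Prod.fst : ST → E) (𝓝[F.M] (x, 0)) (𝓝[F.sl 0] x) :=
    cf.tendsto_nhdsWithin fun p hp => (h.st.mem p.1 p.2).1 hp
  have dn : ∀ a, DifferentiableWithinAt ℝ (F.nu a) F.M (x, 0) := fun a => by
    have d : DifferentiableAt ℝ (fun p : ST => ν p.1 a) (x, 0) :=
      (EuclideanSpace.proj (𝕜 := ℝ) a).differentiableAt.comp _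
        ((h1.differentiableAt (by simp)).comp (x, (0 : ℝ)) differentiableAt_fst)
    refine d.differentiableWithinAt.congr_of_eventuallyEq ?_ ?_
    · filter_upwards [t1.eventually h2] with p hp
      rw [Mv.nu, show F.n p = F.n (p.1, 0) from h.st.n_eq p.1 p.2, hp]
    · rw [Mv.nu, h3]
  set L : Fin 3 → E →L[ℝ] ℝ := fun a => (F.td (F.nu a) (x, 0)).comp (ContinuousLinearMap.inl ℝ E ℝ)
    with hL
  have dL : ∀ a, HasFDerivWithinAt (fun z => F.n (z, 0) a) (L a) (F.sl 0) x := fun a =>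
    HasFDerivWithinAt.comp (f := fun z : E => ((z, 0) : ST)) x (dn a).hasFDerivWithinAt
      (hasFDerivAt_prodMk_left x (0 : ℝ)).hasFDerivWithinAt fun z hz => hz
  refine ⟨∑ a, (L a).smulRight (ee a), ?_, ?_⟩
  · have := HasFDerivWithinAt.fun_sum (u := Finset.univ) fun a _ => (dL a).smul_const (ee a)
    refine this.congr (fun z _ => ?_) ?_ <;>
      exact (EuclideanSpace.basisFun (Fin 3) ℝ).sum_repr _ |>.symm.trans (by simp)
  · have e := h.eq (x, 0) hx
    simp only [Mv.shr, Mv.H, Mv.A, Mv.xn, Finset.sum_apply, sub_zero, Mv.D, Mv.pre, Mv.PL] at e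
    rw [← sub_eq_zero.1 e]
    refine Finset.sum_congr rfl fun a _ => ?_
    simp [hL, EuclideanSpace.inner_single_left, Pi.single_apply]

/-- **E2.** A shrinker whose normal is orthogonal to the unit vector `y` is empty, a plane
containing `y`, or the cylinder of radius `√2` with axis `ℝ y`. -/
theorem cls {F : Mv} (h : F.IsShr) {y : E} (hy : ‖y‖ = 1) (hn : ∀ p ∈ F.M, ⟪F.n p, y⟫_ℝ = 0) :
    F.sl 0 = ∅ ∨ (∃ w : E, ‖w‖ = 1 ∧ ⟪w, y⟫_ℝ = 0 ∧ F.sl 0 = {x | ⟪x, w⟫_ℝ = 0}) ∨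
      F.sl 0 = {x | ‖x‖ ^ 2 - ⟪x, y⟫_ℝ ^ 2 = 2} :=
  (cy_of h hy fun _ hx t => (hs_of h.reg h.closed 0).inv (fun z hz => hn (z, 0) hz) hx t).cls

end Crest.Agent.N250.Cls

end
end

-- ▼ part N250/E/Blow
section

/-!
Row 250, block E (helper85): blow-ups of `√(-t) S` at `(y, 0)`; every direction is regular or
cylindrical.
-/

set_option autoImplicit false

open MeasureTheory Set Filter Topology
open scoped ContDiff InnerProductSpace
open Crest.GeometryTopology.MCF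

noncomputable section

namespace Crest.Agent.N250.E.Bl

lemma sl_res {F : Mv} {J : Set ℝ} {t : ℝ} (ht : t ∈ J) : (F.res (univ ×ˢ J)).sl t = F.sl t := by
  ext x; simp [Mv.sl, Mv.res, ht]

lemma mcf_res {F : Mv} (h : F.IsMCF) {Ω : Set ST} (o : IsOpen Ω) : (F.res Ω).IsMCF := by
  refine ⟨fun p hp => ?_, fun p hp => ?_⟩
  · obtain ⟨W, φ, hW, L⟩ := h.1 p hp.1
    refine ⟨W ∩ Ω, φ, ⟨hW, hp.2⟩, L.isOpen.inter o, L.sm.mono inter_subset_left,
      fun q hq => L.ne q hq.1, fun q hq => ?_, fun q hq hM => L.n_eq q hq.1 hM.1,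
      fun q hq hM => L.V_eq q hq.1 hM.1⟩
    rw [← L.mem q hq.1]
    exact and_iff_left hq.2
  · have e : (F.res Ω).H p = F.H p := by
      simp only [Mv.H, Mv.A, Finset.sum_apply, Mv.D, Mv.pre, Mv.td]
      refine Finset.sum_congr rfl fun a _ => ?_
      exact congrArg (fun L : ST →L[ℝ] ℝ => L (F.PL p (ee a), 0))
        (fderivWithin_inter (f := F.nu a) (o.mem_nhds hp.2))
    rw [e]
    exact h.2 p hp.1

/-- White's theorem for ancient flows -/
lemma white (hW : WhiteS) (Λ : ℝ) : ∃ ε c : ℝ, 0 < ε ∧ 0 < c ∧ ∀ (F : Mv) (X : ST) (r : ℝ),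
    Fl F (Iio 0) Λ → 0 < r → X.2 ≤ 0 → (∀ Y ∈ PC X r, F.Fg Y r ≤ 1 + ε) →
    ∀ p ∈ F.M ∩ PC X (r / 2), F.Reach p (c * r) := by
  obtain ⟨ε, c, hε, hc, H⟩ := hW Λ
  refine ⟨ε, c, hε, hc, fun F X r hF hr hX hg p hp => ?_⟩
  have r2 : 0 < r ^ 2 := by positivity
  have pJ : p.2 ∈ Ioo (X.2 - 3 * r ^ 2) 0 := ⟨by nlinarith [hp.2.2.1], hF.time p hp.1⟩
  have := H _ (X.2 - 3 * r ^ 2) 0 X r (fl_res hF isOpen_Ioo Ioo_subset_Iio_self
    (mcf_res hF.mcf (isOpen_univ.prod isOpen_Ioo))) hr (by linarith) hX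
    (fun Y hY => by
      have : Y.2 - r ^ 2 ∈ Ioo (X.2 - 3 * r ^ 2) 0 :=
        ⟨by linarith [hY.2.1], by linarith [hY.2.2]⟩
      rw [Mv.Fg, Fs_eq, sl_res this]
      exact hg Y hY) p ⟨⟨hp.1, mem_univ _, pJ⟩, hp.2⟩
  intro y hy
  exact this y (by rwa [sl_res pJ])

/-- monotonicity for every centre at a time `≤ 0` -/
lemma fg_mono (hH : HuiskenS) {F : Mv} {Λ : ℝ} (hF : Fl F (Iio 0) Λ) {Y : ST} (hY : Y.2 ≤ 0)
    {r s : ℝ} (hr : 0 < r) (hrs : r ≤ s) : F.Fg Y r ≤ F.Fg Y s := by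
  have r2 : 0 < r ^ 2 := by positivity
  have := (hH F _ Λ isOpen_Iio hF Y (Y.2 - s ^ 2) (Y.2 - r ^ 2) (by nlinarith) (by linarith)
    fun t ht => by have := ht.2; rw [mem_Iio]; linarith).1
  simpa only [sub_sub_cancel, Mv.Fg] using this

variable {S : Mv} {Λ : ℝ} {m : Md} {y : E}

lemma th_anti (hH : HuiskenS) (hS : Sh S Λ m) (y : E) {a b : ℝ} (ha : 0 < a) (hab : a ≤ b) :
    gA (S.sl 0) (b • y) 1 ≤ gA (S.sl 0) (a • y) 1 := by
  have hb := ha.trans_le hab
  have := fg_mono hH hS.cl.fl (Y := (y, 0)) le_rfl (inv_pos.2 hb) (inv_anti₀ ha hab)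
  rwa [unr_Fg hS.shr.st y (inv_pos.2 hb), unr_Fg hS.shr.st y (inv_pos.2 ha), inv_inv, inv_inv]
    at this

/-- the density at `(y, 0)` exists -/
theorem th_lim (hH : HuiskenS) (hS : Sh S Λ m) (y : E) :
    ∃ θ, Tendsto (fun lam : ℝ => gA (S.sl 0) (lam • y) 1) atTop (𝓝 θ) := by
  have a : Antitone fun lam : ℝ => gA (S.sl 0) (max lam 1 • y) 1 := fun a b hab =>
    th_anti hH hS y (lt_max_of_lt_right one_pos) (max_le_max_right 1 hab)
  refine ⟨_, (tendsto_atTop_ciInf a ⟨0, ?_⟩).congr' ?_⟩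
  · rintro _ ⟨t, rfl⟩
    exact gA_nonneg _ _ one_pos
  · filter_upwards [eventually_ge_atTop 1] with t ht
    rw [max_eq_left ht]

/-- **E1.** limits of the blow-ups -/
theorem blow (hP : ParaStmt) (hL : LimStmt) (hJ : ConvJetS) (hF : ConvFlS) (hS : Sh S Λ m) {θ : ℝ}
    (hθ : Tendsto (fun lam : ℝ => gA (S.sl 0) (lam • y) 1) atTop (𝓝 θ)) {α : Type}
    (l : Ultrafilter α) {lam : α → ℝ} (hl : Tendsto lam l atTop) :
    ∃ S' : Mv, Sh S' Λ m ∧ Conv l (fun k => bl S y (lam k)) S'.unresc NT ∧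
      gA (S'.sl 0) 0 1 = θ ∧ ∀ x ∈ S'.sl 0, ∀ τ : ℝ, x + τ • y ∈ S'.sl 0 := by
  have st := hS.shr.st
  have pos : ∀ᶠ k in (l : Filter α), 0 < lam k := hl.eventually (eventually_gt_atTop 0)
  have h1 : ∀ᶠ k in (l : Filter α), Cl (bl S y (lam k)) {t | t / lam k ^ 2 ∈ Iio 0} Λ m :=
    pos.mono fun k hk => hP _ _ Λ m y _ hk hS.cl
  have tk : ∀ K : ℝ, 0 < K → Tendsto (fun k => (bl S y (lam k)).Fg 0 K) l (𝓝 θ) := fun K hK =>
    (hθ.comp (hl.atTop_div_const hK)).congr' (pos.mono fun k hk => (bl_Fg st y hk hK).symm)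
  obtain ⟨S', hS', hc⟩ := hL α l _ _ Λ m h1
    (fun t ht => pos.mono fun k hk => div_neg_of_neg_of_pos ht (by positivity))
    fun K hK => by
      have hK0 : 0 < K := by linarith
      simpa using (tk K hK0).sub (tk K⁻¹ (inv_pos.2 hK0))
  have st' := hS'.shr.st
  refine ⟨S', hS', hc, ?_, fun x hx τ => ?_⟩
  · have := Lim.fg_tendsto hF (h1.mono fun k hk => hk.fl) hc (fun p hp => ⟨trivial, hp.1⟩) 0 one_pos
    rw [unr_Fg st' 0 one_pos, smul_zero] at this
    exact tendsto_nhds_unique this (tk 1 one_pos)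
  · obtain ⟨j1, j2⟩ := hJ α l _ _ _ hc
    have n1 : ∀ z : E, ((z, -1) : ST) ∈ NT := fun z => ⟨trivial, by norm_num⟩
    rw [← unr_sl_one st'] at hx ⊢
    obtain ⟨xk, t1, t2⟩ := j2 (x, -1) (n1 x) hx (fun _ => -1) tendsto_const_nhds
    have tm : Tendsto (fun k => 1 + τ / lam k) l (𝓝 1) := by
      simpa using (tendsto_const_nhds.div_atTop hl).const_add 1
    refine (j1 (fun k => ((1 + τ / lam k) • xk k + τ • y, -(1 + τ / lam k) ^ 2)) (x + τ • y, -1)
      (n1 _) ?_ ?_).1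
    · simpa using ((tm.smul t1).add_const (τ • y)).prodMk_nhds (tm.pow 2).neg
    · filter_upwards [pos, t2, tm.eventually (eventually_gt_nhds one_pos)] with k hk h2 h3
      have h4 := (bl_mem st y (xk k) hk one_pos).1 (by simpa using h2)
      rw [bl_mem st y _ hk h3, add_assoc, ← add_smul, smul_add, inv_smul_smul₀ h3.ne', smul_smul,
        show (1 + τ / lam k)⁻¹ * (τ + lam k) = lam k by
          rw [inv_mul_eq_iff_eq_mul₀ h3.ne']; field_simp; ring]
      simpa using h4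

/-- directions of density at most one are regular -/
theorem regular (hH : HuiskenS) (hC : FsContS) (hW : WhiteS) (hS : Sh S Λ m) {θ : ℝ}
    (hθ : Tendsto (fun lam : ℝ => gA (S.sl 0) (lam • y) 1) atTop (𝓝 θ)) (h1 : θ ≤ 1) :
    ∃ δ c R : ℝ, 0 < δ ∧ 0 < c ∧ ∀ x ∈ S.sl 0, R < ‖x‖ → dist (‖x‖⁻¹ • x) y < δ →
      S.Reach (x, 0) (c * ‖x‖) := by
  have st := hS.shr.st
  obtain ⟨ε, c, hε, hc, H⟩ := white hW Λ
  obtain ⟨a, ha, a0⟩ := ((hθ.eventually (eventually_lt_nhds (show θ < 1 + ε by linarith))).and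
    (eventually_gt_atTop 0)).exists
  set ρ := a⁻¹ with hρ
  have ρ0 : 0 < ρ := inv_pos.2 a0
  have ρ2 : 0 < ρ ^ 2 := by positivity
  have c0 := (hC _ _ Λ isOpen_Iio hS.cl.fl).continuousAt (x := (0 - ρ ^ 2, y, ρ ^ 2))
    ((isOpen_Iio.prod (isOpen_univ.prod isOpen_Ioi)).mem_nhds
      ⟨sub_neg.2 ρ2, trivial, ρ2⟩)
  have c1 : ContinuousAt (fun Y : ST => S.unresc.Fg Y ρ) (y, 0) :=
    ContinuousAt.comp (f := fun Y : ST => (Y.2 - ρ ^ 2, Y.1, ρ ^ 2)) (x := (y, 0)) c0 (by fun_prop)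
  have b0 : S.unresc.Fg (y, 0) ρ < 1 + ε := by rwa [unr_Fg st y ρ0, hρ, inv_inv]
  obtain ⟨δ, hδ, hb⟩ := Metric.eventually_nhds_iff_ball.1 (c1.eventually (eventually_lt_nhds b0))
  set r := min (min ρ δ) (1 / 2) with hr
  have r0 : 0 < r := lt_min (lt_min ρ0 hδ) (by norm_num)
  have r1 : r ≤ ρ := (min_le_left _ _).trans (min_le_left _ _)
  have r2 : r ≤ δ := (min_le_left _ _).trans (min_le_right _ _)
  have r3 : r ≤ 1 / 2 := min_le_right _ _
  have W := H S.unresc (y, 0) r hS.cl.fl r0 le_rfl fun Y hY => by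
    refine (fg_mono hH hS.cl.fl hY.2.2 r0 r1).trans (hb Y ?_).le
    rw [← ball_prod_same]
    refine ⟨Metric.ball_subset_ball r2 hY.1, ?_⟩
    have h2 := hY.2.1
    have h3 := hY.2.2
    simp only at h2 h3
    rw [Metric.mem_ball, Real.dist_eq, abs_lt]
    constructor <;> nlinarith
  refine ⟨r / 2, c * r, 2 / r, by positivity, by positivity, fun x hx hR hd => ?_⟩
  have x0 : 0 < ‖x‖ := lt_trans (by positivity) hR
  have i0 : 0 < ‖x‖⁻¹ := inv_pos.2 x0
  have i1 : ‖x‖⁻¹ < r / 2 := by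
    rw [inv_lt_comm₀ x0 (by positivity), inv_div]; exact hR
  have := W (‖x‖⁻¹ • x, -‖x‖⁻¹ ^ 2) ⟨(unr_mem' st _ i0).2 (by rwa [inv_smul_smul₀ i0.ne']), hd,
    by simp only; nlinarith, by simp only; nlinarith⟩
  rw [← unr_reach st x i0]
  rwa [show ‖x‖⁻¹ * (c * r * ‖x‖) = c * r by field_simp]

lemma cyl_eq (hy : ‖y‖ = 1) : {x : E | ‖x‖ ^ 2 - ⟪x, y⟫_ℝ ^ 2 = 2} = EP.cyl y := by
  ext x
  rw [mem_ofPred_eq, real_inner_comm, ← EP.dz_sq hy]
  exact ⟨fun h => by rw [EP.cyl, mem_ofPred_eq, ← h, Real.sqrt_sq (EP.dz_nonneg y x)],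
    fun h => by rw [show EP.dz y x = √2 from h, Real.sq_sqrt (by norm_num)]⟩

/-- directions of density larger than one: every blow-up limit is the cylinder -/
theorem blow_cyl (hP : ParaStmt) (hL : LimStmt) (hJ : ConvJetS) (hF : ConvFlS) (hS : Sh S Λ m)
    (hy : ‖y‖ = 1) {θ : ℝ} (hθ : Tendsto (fun lam : ℝ => gA (S.sl 0) (lam • y) 1) atTop (𝓝 θ))
    (h1 : 1 < θ) {α : Type} (l : Ultrafilter α) {lam : α → ℝ} (hl : Tendsto lam l atTop) :
    ∃ S' : Mv, Sh S' Λ m ∧ Conv l (fun k => bl S y (lam k)) S'.unresc NT ∧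
      gA (S'.sl 0) 0 1 = θ ∧ S'.sl 0 = EP.cyl y := by
  obtain ⟨S', hS', hc, e, hi⟩ := blow hP hL hJ hF hS hθ l hl
  refine ⟨S', hS', hc, e, ?_⟩
  rcases (Cls.cy_of hS'.shr hy hi).cls with h | ⟨w, w1, -, h⟩ | h
  · rw [h, gA] at e
    simp at e
    linarith
  · have := gA_plane (w := w) (by rintro rfl; simp at w1)
    simp only [real_inner_comm _ w, ← h, e] at this
    linarith
  · rw [h, cyl_eq hy]

/-- **E3.** every direction is regular or cylindrical -/
theorem dich (hP : ParaStmt) (hL : LimStmt) (hH : HuiskenS) (hC : FsContS) (hJ : ConvJetS)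
    (hF : ConvFlS) (hW : WhiteS) (hS : Sh S Λ m) (hy : ‖y‖ = 1) :
    (∃ δ c R : ℝ, 0 < δ ∧ 0 < c ∧ ∀ x ∈ S.sl 0, R < ‖x‖ → dist (‖x‖⁻¹ • x) y < δ →
      S.Reach (x, 0) (c * ‖x‖)) ∨ EP.CylLim y (S.sl 0) := by
  obtain ⟨θ, hθ⟩ := th_lim hH hS y
  rcases le_or_gt θ 1 with h | h
  · exact Or.inl (regular hH hC hW hS hθ h)
  refine Or.inr fun lam hl => ?_
  have u : ((Ultrafilter.of atTop : Ultrafilter ℕ) : Filter ℕ) ≤ atTop := Ultrafilter.of_le _
  obtain ⟨S', hS', hc, -, e⟩ := blow_cyl hP hL hJ hF hS hy hθ h _ (hl.mono_left u)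
  refine ⟨_, _, _, NT, -1, inferInstance, u, fun x => ⟨trivial, by norm_num⟩,
    (unr_sl_one hS'.shr.st).trans e, ?_, hc⟩
  filter_upwards [(hl.mono_left u).eventually (eventually_gt_atTop 0)] with k hk
  simpa using bl_sl hS.shr.st y hk one_pos

end Crest.Agent.N250.E.Bl

end
end

-- ▼ part N250/E/Asm

/-! Row 250, block E (helper28): assembly of `EStmt`. -/

set_option autoImplicit false
open MeasureTheory Set Filter Topology Metric
open scoped ContDiff RealInnerProductSpace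
open Crest.GeometryTopology.MCF

noncomputable section

namespace Crest.Agent.N250.E

open EP (dz cyl CylLim)

variable {S : Mv} {Λ : ℝ} {m : Md}

theorem unr_jet (hS : S.Static) (hU : S.unresc.Reg) {a : ℝ} (ha : 0 < a) {x : E} (hx : x ∈ S.sl 0)
    {k : ℕ} {C : ℝ} (h : S.unresc.NJet k C (a • x, -a ^ 2)) : S.NJet k (a ^ k * C) (x, 0) := by
  let s : Tr.Sim := ⟨0, LinearIsometryEquiv.refl ℝ E, fun _ => a, fun _ => -a ^ 2, univ⟩
  have hm : ∀ p : ST, s.map p = (a • p.1, -a ^ 2) := fun p => by simp [s, Tr.Sim.map]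
  have e : ∀ z : E, a⁻¹ • a • z = z := fun z => by
    rw [smul_smul, inv_mul_cancel₀ ha.ne', one_smul]
  have hp : Tr.Pull s S.unresc S :=
    { ok := ⟨isOpen_univ, fun _ _ => ha, fun _ _ => contDiffAt_const, fun _ _ => contDiffAt_const⟩
      mem := fun p => by
        rw [hm, unr_mem' hS _ ha, e]
        exact (hS.mem p.1 p.2).trans (and_iff_right (mem_univ p)).symm
      n_eq := fun p _ => by
        rw [hm, unr_n hS _ ha, e]
        exact hS.n_eq p.1 p.2
      V_eq := fun p _ => by simp [s, hS.V_eq] }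
  exact (hp.nJet0 hU rfl (p := (x, 0)) hx).2 (by rw [hm]; exact h)

/-- Bernstein estimates read on `S` -/
theorem jets_of (hB : BernS) (hR : ReachAS) (k : ℕ) : ∃ C : ℝ, ∀ (S : Mv) (Λ : ℝ) (m : Md),
    Sh S Λ m → ∀ x ∈ S.sl 0, ∀ a r : ℝ, 0 < a → 0 < r →
    (∀ z ∈ S.sl 0, ∀ μ : ℝ, a ≤ μ → μ < a + r → dist (μ • z) (a • x) < r →
      S.Reach (z, 0) (2 * r / μ)) → S.NJet k (a ^ k * (C / r ^ k)) (x, 0) := by
  obtain ⟨C, hC⟩ := hB k
  refine ⟨C, fun S Λ m hS x hx a r ha hr h => unr_jet hS.shr.st hS.cl.fl.mcf.1 ha hx ?_⟩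
  have st := hS.shr.st
  have a2 : 0 < a ^ 2 := by positivity
  refine hC S.unresc (a • x, -a ^ 2) r hS.cl.fl.mcf hr
    (fun q hq hq' => hS.cl.fl.proper q hq ⟨trivial, ?_⟩) (fun p hp => ?_) _ ⟨?_, ?_, ?_, le_rfl⟩
  · have := hq'.2.2
    change q.2 < 0
    linarith
  · obtain ⟨hM, h1, h2, h3⟩ := hp
    obtain ⟨y, t⟩ := p
    simp only at h1 h2 h3
    set μ := √(-t) with hμ
    have hμ2 : μ ^ 2 = -t := Real.sq_sqrt (by linarith)
    have hμ0 : 0 ≤ μ := Real.sqrt_nonneg _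
    have h4 : a ≤ μ := (pow_le_pow_iff_left₀ ha.le hμ0 two_ne_zero).1 (by linarith)
    have h5 : μ < a + r := by
      by_contra hc
      push Not at hc
      nlinarith [mul_pos ha hr]
    have hμ1 : 0 < μ := ha.trans_le h4
    have ht : t = -μ ^ 2 := by linarith
    rw [ht] at hM ⊢
    have e : μ • μ⁻¹ • y = y := by rw [smul_smul, mul_inv_cancel₀ hμ1.ne', one_smul]
    have h6 := h _ ((unr_mem' st y hμ1).1 hM) μ h4 h5 (by rw [e]; exact h1)
    have h7 := (unr_reach st _ hμ1 _).2 h6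
    rw [e, mul_div_cancel₀ _ hμ1.ne'] at h7
    refine ((hR _ hS.cl.fl.mcf.1 _ hM _ (by positivity) h7).2).trans ?_
    rw [div_le_div_iff₀ (by positivity) (by positivity)]
    nlinarith [sq_nonneg r]
  · rw [unr_mem' st _ ha, smul_smul, inv_mul_cancel₀ ha.ne', one_smul]; exact hx
  · exact mem_ball_self (by positivity)
  · have : 0 < (r / 2) ^ 2 := by positivity
    linarith

theorem s_unit (hS : Sh S Λ m) {x : E} (hx : x ∈ S.sl 0) : ‖S.n (x, 0)‖ = 1 :=
  Tr.n_unit hS.shr.reg hx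

/-- the quantitative multiplicity one theorem read on `S` -/
theorem astar_S (hS : Sh S Λ m) (R : ℝ) (y : E)
    (h : gA (S.sl 0) ((m.L R)⁻¹ • y) 1 - gA (S.sl 0) (m.L R • y) 1 < m.η R) :
    ∀ x ∈ S.sl 0, dist x y < R → S.Reach (x, 0) (m.c R) := by
  intro x hx hd
  have st := hS.shr.st
  have hL : 0 < m.L R := one_pos.trans_le (m.L_ge R)
  have := hS.cl.as R y 1 one_pos (by
    change _ < (0 : ℝ)
    rw [neg_lt_zero]; positivity) (by
    rw [mul_one, unr_Fg st y hL, unr_Fg st y (by positivity), one_div, inv_inv]; exact h) x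
    (by rw [unr_mem' st _ one_pos]; simpa using hx) (by rwa [mul_one])
  rw [← unr_reach st x one_pos, one_smul, mul_comm]
  exact this

theorem regDir_open {y : E} (h : RegDir S y) : ∀ᶠ y' in 𝓝 y, RegDir S y' := by
  obtain ⟨δ, c, R, hδ, hc, H⟩ := h
  filter_upwards [ball_mem_nhds y (half_pos hδ)] with y' hy'
  refine ⟨δ / 2, c, R, half_pos hδ, hc, fun x hx hR hd => H x hx hR ?_⟩
  have := dist_triangle (‖x‖⁻¹ • x) y' y
  rw [mem_ball] at hy'
  linarith

theorem sing_finite (hA : Av (S.sl 0))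
    (hD : ∀ y : E, ‖y‖ = 1 → RegDir S y ∨ CylLim y (S.sl 0)) :
    {y : E | ‖y‖ = 1 ∧ ¬RegDir S y}.Finite := by
  have hc : IsCompact {y : E | ‖y‖ = 1 ∧ ¬RegDir S y} := by
    have h1 : IsClosed {y : E | ¬RegDir S y} := by
      rw [← isOpen_compl_iff, isOpen_iff_mem_nhds]
      intro y hy
      filter_upwards [regDir_open (not_not.1 hy)] with y' hy' h using h hy'
    exact ((isCompact_sphere (0 : E) 1).inter_right h1).of_isClosed_subset
      ((isClosed_eq continuous_norm continuous_const).inter h1) fun y hy => ⟨by simpa using hy.1, hy.2⟩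
  refine hc.induction_on (p := fun A => A.Finite) finite_empty (fun _ _ h h' => h'.subset h)
    (fun _ _ => Finite.union) fun y hy => ⟨{y}, ?_, finite_singleton y⟩
  obtain ⟨δ, hδ, H⟩ := isolated kurS hA hy.1 ((hD y hy.1).resolve_left hy.2)
  filter_upwards [self_mem_nhdsWithin, mem_nhdsWithin_of_mem_nhds (ball_mem_nhds y hδ)]
    with y' h1 h2 using H y' h1.1 h2 ((hD y' h1.1).resolve_left h1.2)

theorem unif_reg (hS : Sh S Λ m) {K : Set E} (hK : IsCompact K) (h : ∀ y ∈ K, RegDir S y) :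
    ∃ δ c R : ℝ, 0 < δ ∧ 0 < c ∧ ∀ x ∈ S.sl 0, R < ‖x‖ → ∀ a ∈ K, dist (‖x‖⁻¹ • x) a < δ →
      S.Reach (x, 0) (c * ‖x‖) := by
  refine hK.induction_on (p := fun K => ∃ δ c R : ℝ, 0 < δ ∧ 0 < c ∧ ∀ x ∈ S.sl 0, R < ‖x‖ →
    ∀ a ∈ K, dist (‖x‖⁻¹ • x) a < δ → S.Reach (x, 0) (c * ‖x‖))
    ⟨1, 1, 0, one_pos, one_pos, fun _ _ _ _ h => h.elim⟩ ?_ ?_ ?_
  · rintro s t hst ⟨δ, c, R, hδ, hc, H⟩
    exact ⟨δ, c, R, hδ, hc, fun x hx hR a ha => H x hx hR a (hst ha)⟩
  · rintro s t ⟨δ, c, R, hδ, hc, H⟩ ⟨δ', c', R', hδ', hc', H'⟩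
    refine ⟨min δ δ', min c c', max R R', lt_min hδ hδ', lt_min hc hc', fun x hx hR a ha hd => ?_⟩
    rcases ha with ha | ha
    · exact reach_mono (s_unit hS hx) (H x hx ((le_max_left _ _).trans_lt hR) a ha
        (hd.trans_le (min_le_left _ _))) (by gcongr; exact min_le_left _ _)
    · exact reach_mono (s_unit hS hx) (H' x hx ((le_max_right _ _).trans_lt hR) a ha
        (hd.trans_le (min_le_right _ _))) (by gcongr; exact min_le_right _ _)
  · intro y hy
    obtain ⟨δ, c, R, hδ, hc, H⟩ := h y hy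
    refine ⟨ball y (δ / 2), mem_nhdsWithin_of_mem_nhds (ball_mem_nhds y (half_pos hδ)), δ / 2, c, R,
      half_pos hδ, hc, fun x hx hR a ha hd => H x hx hR ?_⟩
    have := dist_triangle (‖x‖⁻¹ • x) a y
    rw [mem_ball] at ha
    linarith

theorem dir_close {z a : E} (ha : ‖a‖ = 1) (hz : z ≠ 0) : dist (‖z‖⁻¹ • z) a ≤ 2 * dist z a := by
  have h0 : 0 < ‖z‖ := norm_pos_iff.2 hz
  have h1 := dist_triangle (‖z‖⁻¹ • z) z a
  have h2 : dist (‖z‖⁻¹ • z) z = |1 - ‖z‖| := by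
    rw [dist_eq_norm, show ‖z‖⁻¹ • z - z = (‖z‖⁻¹ * (1 - ‖z‖)) • z by
      rw [mul_sub, inv_mul_cancel₀ h0.ne', mul_one, sub_smul, one_smul], norm_smul,
      Real.norm_eq_abs, abs_mul, abs_inv, abs_norm]
    field_simp
  have h3 := abs_norm_sub_norm_le a z
  rw [ha, ← dist_eq_norm, dist_comm] at h3
  linarith

/-- conical jets -/
theorem con_jets (hB : BernS) (hR : ReachAS) (hS : Sh S Λ m) {K : Set E} (hK : ∀ a ∈ K, ‖a‖ = 1)
    {δ c R : ℝ} (hδ : 0 < δ) (hc : 0 < c) (hR0 : 1 ≤ R)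
    (H : ∀ x ∈ S.sl 0, R < ‖x‖ → ∀ a ∈ K, dist (‖x‖⁻¹ • x) a < δ → S.Reach (x, 0) (c * ‖x‖))
    (k : ℕ) : ∃ C : ℝ, ∀ x ∈ S.sl 0, 4 * R < ‖x‖ → ‖x‖⁻¹ • x ∈ K →
      S.NJet k (C / ‖x‖ ^ k) (x, 0) := by
  obtain ⟨C, hC⟩ := jets_of hB hR k
  set r := min (min (δ / 2) (c / 4)) (4 * R)⁻¹ with hr
  have hr0 : 0 < r := by positivity
  have r1 : r ≤ δ / 2 := (min_le_left _ _).trans (min_le_left _ _)
  have r2 : r ≤ c / 4 := (min_le_left _ _).trans (min_le_right _ _)
  have r3 : r ≤ (4 * R)⁻¹ := min_le_right _ _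
  have r4 : (4 * R)⁻¹ * R = 1 / 4 := by field_simp
  have r5 : (4 * R)⁻¹ ≤ 1 / 4 := by
    rw [one_div]; exact inv_anti₀ (by norm_num) (by linarith)
  refine ⟨C / r ^ k, fun x hx hxR hxK => ?_⟩
  have x0 : 0 < ‖x‖ := by linarith
  have := hC S Λ m hS x hx ‖x‖⁻¹ r (inv_pos.2 x0) hr0 fun z hz μ h1 h2 h3 => ?_
  · rwa [inv_pow, inv_mul_eq_div] at this
  have μ0 : 0 < μ := (inv_pos.2 x0).trans_le h1
  have h4 : ‖x‖⁻¹ ≤ (4 * R)⁻¹ := inv_anti₀ (by linarith) hxR.le
  have h5 : 1 / 2 < μ * ‖z‖ := by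
    have := abs_norm_sub_norm_le (‖x‖⁻¹ • x) (μ • z)
    rw [hK _ hxK, ← dist_eq_norm, dist_comm, norm_smul, Real.norm_eq_abs, abs_of_pos μ0,
      abs_le] at this
    linarith [this.2]
  have h6 : R < ‖z‖ := by
    by_contra hcon
    push Not at hcon
    have : μ * ‖z‖ ≤ (2 * (4 * R)⁻¹) * R := by gcongr; linarith
    linarith
  have z0 : 0 < ‖z‖ := by linarith
  have h7 := dir_close (hK _ hxK) (smul_ne_zero μ0.ne' (norm_pos_iff.1 z0))
  have e : ‖μ • z‖⁻¹ • μ • z = ‖z‖⁻¹ • z := by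
    rw [smul_smul, norm_smul, Real.norm_eq_abs, abs_of_pos μ0]
    congr 1; field_simp
  rw [e] at h7
  refine reach_mono (s_unit hS hz) (H z hz h6 _ hxK (by linarith)) ?_
  rw [div_le_iff₀ μ0]
  nlinarith

theorem eStmt_core (hA : AvoidS) (hB : BernS) (hR : ReachAS) (hD : DichS) (hT : ThS) : EStmt := by
  intro S Λ m hS
  have av := av_of hA hS
  have fin := sing_finite av (hD S Λ m hS)
  obtain ⟨p, e, he⟩ := fin.fin_param
  obtain ⟨einj, er⟩ := he
  have emem : ∀ j, ‖e j‖ = 1 ∧ ¬RegDir S (e j) := fun j => by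
    have : e j ∈ range e := mem_range_self j
    rw [er] at this; exact this
  have ecyl : ∀ j, CylLim (e j) (S.sl 0) := fun j =>
    (hD S Λ m hS _ (emem j).1).resolve_left (emem j).2
  choose Q hQ using fun j => exists_Q (emem j).1
  choose εc Rc hεc hc using fun j => clean kurS av (emem j).1 (ecyl j)
  choose Rt r rsm rper rnear rlim rtube using fun j =>
    tubeS (Q j) (S.sl 0) (by rw [hQ]; exact ecyl j)
  -- the slope
  obtain ⟨ε, ⟨h1, h2, h3⟩, ε0⟩ : ∃ ε : ℝ, (ε ≤ 1 ∧ (∀ j, ε ≤ εc j) ∧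
      ∀ i j, i ≠ j → 4 * ε < dist (e i) (e j)) ∧ 0 < ε := by
    refine (Eventually.and (f := 𝓝[>] (0 : ℝ)) (mem_nhdsWithin_of_mem_nhds ?_)
      self_mem_nhdsWithin).exists
    refine (eventually_le_nhds one_pos).and ((eventually_all.2 fun j =>
      eventually_le_nhds (hεc j)).and (eventually_all.2 fun i => eventually_all.2 fun j => ?_))
    by_cases hij : i = j
    · exact Eventually.of_forall fun _ h => absurd hij h
    · have : 0 < dist (e i) (e j) / 4 := by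
        have := dist_pos.2 (einj.ne hij); positivity
      filter_upwards [eventually_lt_nhds this] with ε h _
      linarith
  -- the conical directions
  set K : Set E := {a | ‖a‖ = 1 ∧ ∀ j, ε * ⟪e j, a⟫ ≤ dz (e j) a} with hKdef
  have hK : IsCompact K := by
    have h1 : IsClosed (⋂ j, {a : E | ε * ⟪e j, a⟫ ≤ dz (e j) a}) :=
      isClosed_iInter fun j => isClosed_le (by fun_prop) (continuous_dz _)
    have e1 : K = sphere (0 : E) 1 ∩ ⋂ j, {a : E | ε * ⟪e j, a⟫ ≤ dz (e j) a} := by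
      ext y; simp [hKdef]
    rw [e1]
    exact (isCompact_sphere (0 : E) 1).inter_right h1
  have hKreg : ∀ a ∈ K, RegDir S a := fun a ha => by
    by_contra hn
    have : a ∈ range e := by rw [er]; exact ⟨ha.1, hn⟩
    obtain ⟨j, rfl⟩ := this
    have h4 := ha.2 j
    have h5 := dz_sq ha.1 (e j)
    rw [real_inner_self_eq_norm_sq, ha.1] at h4 h5
    nlinarith
  obtain ⟨δ, c, R0, hδ, c0, H⟩ := unif_reg hS hK hKreg
  have H' : ∀ x ∈ S.sl 0, max R0 1 < ‖x‖ → ∀ a ∈ K, dist (‖x‖⁻¹ • x) a < δ →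
      S.Reach (x, 0) (c * ‖x‖) := fun x hx h => H x hx ((le_max_left _ _).trans_lt h)
  have hdir : ∀ x : E, 0 < ‖x‖ → (∀ j, (Q j).symm x ∉ cone0 ε) → ‖x‖⁻¹ • x ∈ K := by
    intro x hx h
    refine ⟨by rw [norm_smul, norm_inv, norm_norm, inv_mul_cancel₀ hx.ne'], fun j => ?_⟩
    have := h j
    rw [mem_cone0, hQ, not_le] at this
    rw [inner_smul_right, dz_smul _ _ (inv_pos.2 hx).le, mul_left_comm]
    exact mul_le_mul_of_nonneg_left this.le (inv_pos.2 hx).le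
  -- small density drop along the axes
  have hdrop : ∀ j, ∀ᶠ s : ℝ in atTop, gA (S.sl 0) ((m.L 3)⁻¹ • s • e j) 1 -
      gA (S.sl 0) (m.L 3 • s • e j) 1 < m.η 3 := fun j => by
    obtain ⟨θ, hθ⟩ := hT S Λ m hS (e j)
    have hL : 0 < m.L 3 := one_pos.trans_le (m.L_ge 3)
    have t1 := hθ.comp (tendsto_id.const_mul_atTop (inv_pos.2 hL))
    have t2 := hθ.comp (tendsto_id.const_mul_atTop hL)
    have := (t1.sub t2).eventually (eventually_lt_nhds (show θ - θ < m.η 3 by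
      simpa using m.η_pos 3))
    simpa only [Function.comp, id, smul_smul] using this
  choose Rd hRd using fun j => eventually_atTop.1 (hdrop j)
  obtain ⟨R, g1, g2, g3, g4, g5⟩ : ∃ R : ℝ, 4 * max R0 1 ≤ R ∧ 3 / ε ≤ R ∧ (∀ j, Rc j ≤ R) ∧
      (∀ j, Rt j ≤ R) ∧ ∀ j, Rd j ≤ R :=
    ((eventually_ge_atTop _).and ((eventually_ge_atTop _).and
      ((eventually_all.2 fun j => eventually_ge_atTop _).and
      ((eventually_all.2 fun j => eventually_ge_atTop _).and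
      (eventually_all.2 fun j => eventually_ge_atTop _))))).exists
  have m1 : 1 ≤ max R0 1 := le_max_right _ _
  have hclean : ∀ j, ∀ x ∈ S.sl 0, R ≤ ⟪e j, x⟫ → dz (e j) x ≤ ε * ⟪e j, x⟫ → dz (e j) x < 2 :=
    fun j x hx ha hb => hc j x hx ((g3 j).trans ha)
      (hb.trans (mul_le_mul_of_nonneg_right (h2 j) (by linarith)))
  have reach : ∀ x ∈ S.sl 0, R < ‖x‖ → (∀ j, (Q j).symm x ∉ cone0 ε) →
      S.Reach (x, 0) (c * ‖x‖) := fun x hx ha hb =>
    H' x hx (by linarith) _ (hdir x (by linarith) hb) (by simpa using hδ)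
  have reach0 : ∃ ρ : ℝ, 0 < ρ ∧ ∀ x ∈ S.sl 0, S.Reach (x, 0) ρ := by
    refine ⟨min (min (m.c (2 * R + 1)) (m.c 3)) c, lt_min (lt_min (m.c_pos _) (m.c_pos _)) c0,
      fun x hx => ?_⟩
    by_cases ha : ‖x‖ ≤ 2 * R
    · refine reach_mono (s_unit hS hx) (astar_S hS (2 * R + 1) 0 (by simpa using m.η_pos _) x hx
        (by rw [dist_zero_right]; linarith)) ((min_le_left _ _).trans (min_le_left _ _))
    push Not at ha
    by_cases hb : ∀ j, (Q j).symm x ∉ cone0 ε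
    · refine reach_mono (s_unit hS hx) (reach x hx (by linarith) hb) ((min_le_right _ _).trans ?_)
      nlinarith
    push Not at hb
    obtain ⟨j, hj⟩ := hb
    rw [mem_cone0, hQ] at hj
    have i0 : 0 ≤ ⟪e j, x⟫ := by
      by_contra hcon
      push Not at hcon
      nlinarith [dz_nonneg (e j) x]
    have i1 := norm_le_dz (emem j).1 x
    rw [abs_of_nonneg i0] at i1
    have i2 : R ≤ ⟪e j, x⟫ := by nlinarith
    have i3 := hclean j x hx i2 hj
    refine reach_mono (s_unit hS hx) (astar_S hS 3 (⟪e j, x⟫ • e j) (hRd j _ ((g5 j).trans i2))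
      x hx ?_) ((min_le_left _ _).trans (min_le_right _ _))
    rw [dist_eq_norm]
    change dz (e j) x < 3
    linarith
  refine ⟨⟨p, Q, ε, R, r, ε0, h1, by rwa [div_le_iff₀ ε0, mul_comm] at g2, ?_,
    fun j => (rsm j).mono fun q hq => (g4 j).trans_lt hq, rper,
    fun j q hq => rnear j q ((g4 j).trans_lt hq), rlim, ?_, ⟨c, c0, reach⟩, ?_, reach0, ?_⟩⟩
  · intro i j hij x hx ha hb
    rw [mem_cone0, hQ] at ha hb
    linarith [axes_close (emem i).1 (emem j).1 ε0 hx ha hb, h3 i j hij]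
  · intro j x hx hR
    have hRt : Rt j < x 0 := (g4 j).trans_lt hR
    constructor
    · intro h
      refine (rtube j x hRt ?_).1 h
      have a1 := inner_Q (Q j) x
      have a2 := dz_Q (Q j) x
      rw [hQ] at a1 a2
      rw [← a2]
      exact (hclean j _ h (by rw [a1]; exact hR.le) (by rw [a1, a2]; exact hx)).le
    · rintro ⟨θ, hθ⟩
      refine (rtube j x hRt ?_).2 ⟨θ, hθ⟩
      obtain ⟨b1, b2⟩ := rnear j (x 0, θ) hRt
      have c1 : x 1 = r j (x 0, θ) * Real.cos θ := by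
        conv_lhs => rw [hθ]
        rfl
      have c2 : x 2 = r j (x 0, θ) * Real.sin θ := by
        conv_lhs => rw [hθ]
        rfl
      rw [c1, c2, Real.sqrt_le_iff]
      refine ⟨by norm_num, ?_⟩
      rw [mul_pow, mul_pow, ← mul_add, Real.cos_sq_add_sin_sq]
      nlinarith
  · intro k
    obtain ⟨C, hC⟩ := con_jets hB hR hS (fun a ha => ha.1) hδ c0 m1 H' k
    exact ⟨C, fun x hx ha hb => hC x hx (by linarith) (hdir x (by linarith) hb)⟩
  · intro k
    obtain ⟨ρ, ρ0, hρ⟩ := reach0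
    obtain ⟨C, hC⟩ := jets_of hB hR k
    refine ⟨_, fun x hx => hC S Λ m hS x hx 1 (ρ / 2) one_pos (half_pos ρ0) fun z hz μ a1 _ _ =>
      reach_mono (s_unit hS hz) (hρ z hz) ?_⟩
    rw [div_le_iff₀ (by linarith)]
    nlinarith

/-- BLOCK E from the toolbox -/
theorem eStmt_of (hL : LimStmt) (hH : HuiskenS) (hC : FsContS) (hJ : ConvJetS) (hF : ConvFlS)
    (hW : WhiteS) (hA : AvoidS) (hB : BernS) (hR : ReachAS) : EStmt :=
  eStmt_core hA hB hR (fun _ _ _ hS _ hy => Bl.dich Tr.paraStmt hL hH hC hJ hF hW hS hy)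
    fun _ _ _ hS y => Bl.th_lim hH hS y

end Crest.Agent.N250.E

end
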